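import Mathlib

/-!
P230 helper: volumes of balls, boxes and caps, and counting of grid points.
-/

open MeasureTheory Metric Set
open scoped RealInnerProductSpace

namespace Vale.Agent.P230

noncomputable section

/-- Euclidean space. -/
abbrev Sp (n : ℕ) := EuclideanSpace ℝ (Fin n)

variable {n : ℕ}

/-- Volume of the unit ball. -/
def ballVol (n : ℕ) : ℝ := volume.real (closedBall (0 : Sp n) 1)

lemma vol_closedBall (x : Sp n) {r : ℝ} (hr : 0 ≤ r) :
    volume.real (closedBall x r) = r ^ n * ballVol n := by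
  rw [Measure.addHaar_real_closedBall' volume x hr, finrank_euclideanSpace_fin]
  rfl

lemma ballVol_pos : 0 < ballVol n :=
  ENNReal.toReal_pos (measure_closedBall_pos volume 0 one_pos).ne' measure_closedBall_lt_top.ne

lemma vol_box (a b : Fin n → ℝ) (hab : ∀ i, a i ≤ b i) :
    volume {z : Sp n | ∀ i, a i ≤ z i ∧ z i < b i} = ENNReal.ofReal (∏ i, (b i - a i)) := by
  have h : {z : Sp n | ∀ i, a i ≤ z i ∧ z i < b i}
      = (@WithLp.ofLp 2 (Fin n → ℝ)) ⁻¹' (Set.univ.pi fun i => Ico (a i) (b i)) := by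
    ext z; simp
  rw [h, (PiLp.volume_preserving_ofLp (Fin n)).measure_preimage
    ((MeasurableSet.univ_pi fun i => measurableSet_Ico).nullMeasurableSet),
    Real.volume_pi_Ico, ENNReal.ofReal_prod_of_nonneg fun i _ => sub_nonneg.2 (hab i)]

lemma abs_apply_le (z : Sp n) (i : Fin n) : |z i| ≤ ‖z‖ := by
  simpa [Real.norm_eq_abs] using PiLp.norm_apply_le z i

lemma norm_le_of_abs {z : Sp n} {c : ℝ} (hc : 0 ≤ c) (h : ∀ i, |z i| ≤ c) :
    ‖z‖ ≤ Real.sqrt n * c := by
  rw [EuclideanSpace.norm_eq]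
  calc Real.sqrt (∑ i, ‖z i‖ ^ 2) ≤ Real.sqrt (∑ _i : Fin n, c ^ 2) := by
        refine Real.sqrt_le_sqrt (Finset.sum_le_sum fun i _ => ?_)
        rw [Real.norm_eq_abs]; exact pow_le_pow_left₀ (abs_nonneg _) (h i) 2
    _ = Real.sqrt n * c := by
        rw [Finset.sum_const, Finset.card_univ, Fintype.card_fin, nsmul_eq_mul,
          Real.sqrt_mul (Nat.cast_nonneg _), Real.sqrt_sq hc]

lemma ballVol_lower (hn : 0 < n) : (1 / Real.sqrt n) ^ n ≤ ballVol n := by
  have hs : 0 < Real.sqrt n := Real.sqrt_pos.2 (by exact_mod_cast hn)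
  have h := vol_box (n := n) (fun _ => 0) (fun _ => 1 / Real.sqrt n) (fun _ => by positivity)
  simp only [sub_zero, Finset.prod_const, Finset.card_univ, Fintype.card_fin] at h
  have h2 : volume.real {z : Sp n | ∀ i, (0 : ℝ) ≤ z i ∧ z i < 1 / Real.sqrt n}
      = (1 / Real.sqrt n) ^ n := by
    rw [measureReal_def, h, ENNReal.toReal_ofReal (by positivity)]
  rw [← h2]
  refine measureReal_mono (fun z hz => ?_) measure_closedBall_lt_top.ne
  rw [mem_closedBall, dist_zero_right]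
  refine (norm_le_of_abs (c := 1 / Real.sqrt n) (by positivity) fun i => ?_).trans
    (le_of_eq (by field_simp))
  rw [abs_of_nonneg (hz i).1]; exact (hz i).2.le

/-- A cap of the unit ball. -/
def cap (u : Sp n) (s : ℝ) : Set (Sp n) := {z | ‖z‖ ≤ 1 ∧ s < ⟪u, z⟫}

/-- Volume of a cap. -/
def capVol (u : Sp n) (s : ℝ) : ℝ := volume.real (cap u s)

lemma cap_subset_ball (u : Sp n) (s : ℝ) : cap u s ⊆ closedBall 0 1 := fun z hz => by
  simpa using hz.1

lemma cap_ne_top (u : Sp n) (s : ℝ) : volume (cap u s) ≠ ⊤ :=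
  ne_top_of_le_ne_top measure_closedBall_lt_top.ne (measure_mono (cap_subset_ball u s))

lemma capVol_rot {u v : Sp n} (h : ‖u‖ = ‖v‖) (s : ℝ) : capVol u s = capVol v s := by
  set e := Submodule.reflection (ℝ ∙ (u - v))ᗮ with he
  have huv : e u = v := Submodule.reflection_sub h
  have hpre : e ⁻¹' cap v s = cap u s := by
    ext z
    simp only [cap, mem_preimage, mem_ofPred_eq, LinearIsometryEquiv.norm_map]
    rw [← huv, LinearIsometryEquiv.inner_map_map]
  unfold capVol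
  rw [measureReal_def, measureReal_def, ← hpre]
  congr 1
  refine e.measurePreserving.measure_preimage ?_
  exact ((measurableSet_le continuous_norm.measurable measurable_const).inter
    (measurableSet_lt (f := fun _ : Sp n => s) (g := fun z : Sp n => ⟪v, z⟫) measurable_const
      (continuous_const.inner continuous_id).measurable)).nullMeasurableSet

lemma cap_smul (e : Sp n) {a : ℝ} (ha : 0 < a) (s : ℝ) : cap (a • e) s = cap e (s / a) := by
  ext z
  simp only [cap, mem_ofPred_eq, real_inner_smul_left, div_lt_iff₀ ha]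
  rw [mul_comm a]

lemma capVol_anti (u : Sp n) {s s' : ℝ} (h : s ≤ s') : capVol u s' ≤ capVol u s :=
  measureReal_mono (fun _ hz => ⟨hz.1, h.trans_lt hz.2⟩) (cap_ne_top u s)

/-- Shifting a cap outwards loses at most a homothety factor. -/
lemma capVol_shift_lower {e : Sp n} (he : ‖e‖ = 1) {s s' : ℝ} (hs : s ≤ s') (hs' : s' < 1) :
    ((1 - s') / (1 - s)) ^ n * capVol e s ≤ capVol e s' := by
  set k := (1 - s') / (1 - s) with hk
  have h1 : 0 < 1 - s := by linarith
  have hk0 : 0 < k := div_pos (by linarith) h1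
  have hk1 : k ≤ 1 := by rw [hk, div_le_one h1]; linarith
  have hsub : AffineMap.homothety e k '' cap e s ⊆ cap e s' := by
    rintro _ ⟨g, hg, rfl⟩
    rw [AffineMap.homothety_apply, vsub_eq_sub, vadd_eq_add]
    refine ⟨?_, ?_⟩
    · have : k • (g - e) + e = k • g + (1 - k) • e := by module
      rw [this]
      refine (norm_add_le _ _).trans ?_
      rw [norm_smul, norm_smul, he, Real.norm_of_nonneg hk0.le,
        Real.norm_of_nonneg (sub_nonneg.2 hk1)]
      nlinarith [hg.1]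
    · rw [inner_add_right, real_inner_smul_right, inner_sub_right,
        real_inner_self_eq_norm_sq, he]
      have e2 : k * (s - 1) = s' - 1 := by rw [hk]; field_simp; ring
      nlinarith [mul_lt_mul_of_pos_left hg.2 hk0]
  have := measureReal_mono hsub (cap_ne_top e s')
  refine le_trans (le_of_eq ?_) this
  rw [measureReal_def, Measure.addHaar_image_homothety, ENNReal.toReal_mul,
    ENNReal.toReal_ofReal (abs_nonneg _), finrank_euclideanSpace_fin, abs_of_pos (pow_pos hk0 n)]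
  rfl

/-- Shifting a cap outwards gains a factor coming from an orthogonal dilation. -/
lemma capVol_shift_upper {e : Sp n} (he : ‖e‖ = 1) {s d γ : ℝ} (hs : 0 ≤ s) (hs1 : s < 1)
    (hd : 0 ≤ d) (hγ0 : 1 ≤ γ) (hγ : γ ^ 2 ≤ 1 + 2 * s * d / (1 - s ^ 2)) :
    γ ^ (n - 1) * capVol e (s + d) ≤ capVol e s := by
  rcases Nat.eq_zero_or_pos n with hn | hn
  · subst hn
    simp [Subsingleton.elim e 0] at he
  set i0 : Fin n := ⟨0, hn⟩
  set e0 : Sp n := EuclideanSpace.single i0 1 with he0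
  have he0n : ‖e0‖ = 1 := by simp [he0]
  rw [capVol_rot (v := e0) (by rw [he, he0n]), capVol_rot (u := e) (v := e0) (by rw [he, he0n])]
  set w : Fin n → ℝ := fun i => if i = i0 then 1 else γ with hw
  set b := (EuclideanSpace.basisFun (Fin n) ℝ).toBasis with hb
  set L : Sp n →ₗ[ℝ] Sp n := Matrix.toLin b b (Matrix.diagonal w) with hL
  have hLapp : ∀ z i, L z i = w i * z i := by
    intro z i
    simp [hL, hb, Matrix.toLin_apply, Matrix.mulVec_diagonal, Finset.sum_apply,
      EuclideanSpace.basisFun_apply, Pi.single_apply]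
  have hdet : LinearMap.det L = γ ^ (n - 1) := by
    rw [hL, LinearMap.det_toLin, Matrix.det_diagonal,
      ← Finset.mul_prod_erase Finset.univ w (Finset.mem_univ i0)]
    have hw0 : w i0 = 1 := by simp [hw]
    rw [hw0, one_mul, Finset.prod_congr rfl (g := fun _ => γ)
      (fun i hi => by simp [hw, Finset.ne_of_mem_erase hi])]
    simp
  have hsub : (fun z => z - d • e0) '' (L '' cap e0 (s + d)) ⊆ cap e0 s := by
    rintro _ ⟨_, ⟨g, hg, rfl⟩, rfl⟩
    have hinner : ∀ z : Sp n, ⟪e0, z⟫ = z i0 := fun z => by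
      simp [he0, EuclideanSpace.inner_single_left]
    have hg2 : s + d < g i0 := by simpa [hinner] using hg.2
    refine ⟨?_, ?_⟩
    · have hn2 : ‖L g - d • e0‖ ^ 2 ≤ 1 := by
        have hgn : ∑ i, g i ^ 2 ≤ 1 := by
          rw [← EuclideanSpace.real_norm_sq_eq]
          nlinarith [hg.1, norm_nonneg g]
        rw [EuclideanSpace.real_norm_sq_eq,
          ← Finset.add_sum_erase Finset.univ _ (Finset.mem_univ i0)]
        rw [← Finset.add_sum_erase Finset.univ _ (Finset.mem_univ i0)] at hgn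
        have e1 : (L g - d • e0) i0 = g i0 - d := by simp [hLapp, hw, he0]
        have e2 : ∀ i ∈ Finset.univ.erase i0, (L g - d • e0) i ^ 2 = γ ^ 2 * g i ^ 2 := by
          intro i hi
          simp [hLapp, hw, he0, Finset.ne_of_mem_erase hi, mul_pow]
        rw [e1, Finset.sum_congr rfl e2, ← Finset.mul_sum]
        have hrest : 0 ≤ ∑ i ∈ Finset.univ.erase i0, g i ^ 2 :=
          Finset.sum_nonneg fun i _ => sq_nonneg _
        have hg1 : g i0 ≤ 1 := by nlinarith
        have hden : 0 < 1 - s ^ 2 := by nlinarith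
        have key : (γ ^ 2 - 1) * (1 - g i0 ^ 2) ≤ 2 * s * d := by
          have h1 : (γ ^ 2 - 1) * (1 - s ^ 2) ≤ 2 * s * d := by
            have h2 : γ ^ 2 - 1 ≤ 2 * s * d / (1 - s ^ 2) := by linarith
            exact (le_div_iff₀ hden).1 h2
          have h3 : (γ ^ 2 - 1) * (1 - g i0 ^ 2) ≤ (γ ^ 2 - 1) * (1 - s ^ 2) :=
            mul_le_mul_of_nonneg_left (by nlinarith) (by nlinarith)
          linarith
        nlinarith [mul_le_mul_of_nonneg_left
          (show ∑ i ∈ Finset.univ.erase i0, g i ^ 2 ≤ 1 - g i0 ^ 2 by linarith) (sq_nonneg γ),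
          mul_le_mul_of_nonneg_left hg2.le hd, sq_nonneg d]
      nlinarith [norm_nonneg (L g - d • e0)]
    · rw [hinner]
      simp [hLapp, hw, he0]
      linarith
  have := measureReal_mono hsub (cap_ne_top e0 s)
  refine le_trans (le_of_eq ?_) this
  simp only [measureReal_def, sub_eq_add_neg, image_add_right, measure_preimage_add_right,
    Measure.addHaar_image_linearMap, hdet, ENNReal.toReal_mul]
  rw [ENNReal.toReal_ofReal (abs_nonneg _), abs_of_nonneg (by positivity)]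
  rfl

/-- A cap of any ball, cut by a vector of norm at most one, lies in a small ball. -/
lemma cap_subset_small {u : Sp n} (hu : ‖u‖ ≤ 1) {s ρ : ℝ} (hs : 0 ≤ s) :
    {z : Sp n | ‖z‖ ≤ ρ ∧ s < ⟪u, z⟫} ⊆
      closedBall ((s / ‖u‖) • u) (Real.sqrt (ρ ^ 2 - s ^ 2)) := by
  intro z hz
  have hu0 : 0 < ‖u‖ := by
    rw [norm_pos_iff]; rintro rfl
    have := hz.2
    simp at this; linarith
  rw [mem_closedBall, dist_eq_norm]
  refine Real.le_sqrt_of_sq_le ?_
  rw [norm_sub_sq_real, norm_smul, real_inner_smul_right, real_inner_comm,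
    Real.norm_of_nonneg (div_nonneg hs hu0.le), div_mul_cancel₀ _ hu0.ne']
  have h2 : s * s ≤ s / ‖u‖ * ⟪u, z⟫ := by
    refine mul_le_mul ?_ hz.2.le hs (div_nonneg hs hu0.le)
    rw [le_div_iff₀ hu0]
    nlinarith
  nlinarith [hz.1, norm_nonneg z]

lemma capVol_lower {e : Sp n} (he : ‖e‖ = 1) {s : ℝ} (hs0 : 0 ≤ s) (hs1 : s < 1) :
    ((1 - s) / 4) ^ n * ballVol n ≤ capVol e s := by
  rw [← vol_closedBall (((1 + s) / 2) • e) (by linarith)]
  refine measureReal_mono (fun z hz => ?_) (cap_ne_top e s)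
  rw [mem_closedBall, dist_eq_norm] at hz
  refine ⟨?_, ?_⟩
  · have h2 := norm_le_norm_add_norm_sub' z (((1 + s) / 2) • e)
    rw [norm_smul, he, Real.norm_of_nonneg (by linarith)] at h2
    linarith
  · have h2 := abs_real_inner_le_norm e (z - ((1 + s) / 2) • e)
    rw [he, one_mul, inner_sub_right, real_inner_smul_right, real_inner_self_eq_norm_sq, he]
      at h2
    have := (abs_le.1 (h2.trans hz)).1
    linarith

/-- Grid point. -/
def gp (ε : ℝ) (g : Fin n → ℤ) : Sp n := WithLp.toLp 2 fun i => ε * (g i : ℝ)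

/-- Rounding to the grid. -/
def rd (ε : ℝ) (z : Sp n) : Fin n → ℤ := fun i => ⌊z i / ε⌋

/-- Grid cell. -/
def cell (ε : ℝ) (g : Fin n → ℤ) : Set (Sp n) := {z | rd ε z = g}

lemma cell_eq {ε : ℝ} (hε : 0 < ε) (g : Fin n → ℤ) :
    cell ε g = {z : Sp n | ∀ i, ε * (g i : ℝ) ≤ z i ∧ z i < ε * ((g i : ℝ) + 1)} := by
  ext z
  simp only [cell, rd, mem_ofPred_eq, funext_iff, Int.floor_eq_iff]
  refine forall_congr' fun i => ?_
  rw [le_div_iff₀ hε, div_lt_iff₀ hε]
  constructor <;> rintro ⟨a, b⟩ <;> constructor <;> linarith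

lemma vol_cell {ε : ℝ} (hε : 0 < ε) (g : Fin n → ℤ) :
    volume (cell (n := n) ε g) = ENNReal.ofReal (ε ^ n) := by
  rw [cell_eq hε, vol_box _ _ (fun i => by nlinarith)]
  simp [mul_add]

lemma measurable_cell {ε : ℝ} (hε : 0 < ε) (g : Fin n → ℤ) :
    MeasurableSet (cell (n := n) ε g) := by
  have h : cell (n := n) ε g = (@WithLp.ofLp 2 (Fin n → ℝ)) ⁻¹'
      (Set.univ.pi fun i => Ico (ε * (g i : ℝ)) (ε * ((g i : ℝ) + 1))) := by
    rw [cell_eq hε]; ext z; simp
  rw [h]
  exact (PiLp.volume_preserving_ofLp (Fin n)).measurable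
    (MeasurableSet.univ_pi fun i => measurableSet_Ico)

/-- Distance to the rounded point. -/
lemma norm_sub_rd {ε : ℝ} (hε : 0 < ε) (z : Sp n) :
    ‖z - gp ε (rd ε z)‖ ≤ Real.sqrt n * ε := by
  refine norm_le_of_abs hε.le fun i => ?_
  have h1 := Int.floor_le (z i / ε)
  have h2 := Int.lt_floor_add_one (z i / ε)
  rw [le_div_iff₀ hε] at h1
  rw [div_lt_iff₀ hε] at h2
  simp only [PiLp.sub_apply, gp, rd]
  rw [abs_le]
  constructor <;> linarith

lemma grid_count_le {ε : ℝ} (hε : 0 < ε) (S : Finset (Fin n → ℤ)) (A : Set (Sp n))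
    (hA : volume A ≠ ⊤) (h : ∀ g ∈ S, cell ε g ⊆ A) :
    (S.card : ℝ) * ε ^ n ≤ volume.real A := by
  have hd : Pairwise (Function.onFun Disjoint (cell (n := n) ε)) := by
    intro g g' hgg'
    refine Set.disjoint_left.2 fun z hz hz' => hgg' ?_
    exact (show rd ε z = g from hz).symm.trans hz'
  have hu : volume (⋃ g ∈ S, cell ε g) = ENNReal.ofReal ((S.card : ℝ) * ε ^ n) := by
    rw [measure_biUnion_finset (hd.set_pairwise _) (fun g _ => measurable_cell hε g)]
    simp only [vol_cell hε, Finset.sum_const, nsmul_eq_mul]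
    rw [ENNReal.ofReal_mul (Nat.cast_nonneg _), ENNReal.ofReal_natCast]
  have h2 := ENNReal.toReal_mono hA (measure_mono (μ := volume) (iUnion₂_subset h))
  rwa [hu, ENNReal.toReal_ofReal (by positivity)] at h2

lemma le_grid_count {ε : ℝ} (hε : 0 < ε) (S : Finset (Fin n → ℤ)) (A : Set (Sp n))
    (h : ∀ z ∈ A, rd ε z ∈ S) :
    volume.real A ≤ (S.card : ℝ) * ε ^ n := by
  refine ENNReal.toReal_le_of_le_ofReal (by positivity) ?_
  calc volume A ≤ volume (⋃ g ∈ S, cell ε g) :=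
        measure_mono fun z hz => mem_iUnion₂.2 ⟨_, h z hz, rfl⟩
    _ ≤ ∑ g ∈ S, volume (cell (n := n) ε g) := measure_biUnion_finset_le _ _
    _ = _ := by
        simp only [vol_cell hε, Finset.sum_const, nsmul_eq_mul]
        rw [ENNReal.ofReal_mul (Nat.cast_nonneg _), ENNReal.ofReal_natCast]

/-- Bound for the integer coordinates of grid points in a ball. -/
def gridBd (ε ρ : ℝ) : ℤ := ⌈ρ / ε⌉

open scoped Classical in
/-- The grid points in a ball. -/
def gridBall (n : ℕ) (ε ρ : ℝ) : Finset (Fin n → ℤ) :=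
  (Fintype.piFinset fun _ : Fin n => Finset.Icc (-gridBd ε ρ) (gridBd ε ρ)).filter
    fun g => ‖gp ε g‖ ≤ ρ

lemma mem_gridBall {ε ρ : ℝ} (hε : 0 < ε) {g : Fin n → ℤ} :
    g ∈ gridBall n ε ρ ↔ ‖gp ε g‖ ≤ ρ := by
  simp only [gridBall, Finset.mem_filter, Fintype.mem_piFinset, Finset.mem_Icc,
    and_iff_right_iff_imp]
  intro h i
  have h1 : |ε * (g i : ℝ)| ≤ ρ := (abs_apply_le (gp ε g) i).trans h
  have h2 : |(g i : ℝ)| ≤ ρ / ε := by
    rw [le_div_iff₀ hε]
    rwa [abs_mul, abs_of_pos hε, mul_comm] at h1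
  have h3 : |g i| ≤ gridBd ε ρ := by
    exact_mod_cast (show ((|g i| : ℤ) : ℝ) ≤ (gridBd ε ρ : ℝ) from by
      push_cast; exact h2.trans (Int.le_ceil _))
  exact abs_le.1 h3

lemma card_gridBall_le {ε ρ : ℝ} (hε : 0 < ε) (hρ : 0 ≤ ρ) :
    ((gridBall n ε ρ).card : ℝ) ≤ (2 * (ρ / ε) + 3) ^ n := by
  refine le_trans (Nat.cast_le.2 (Finset.card_filter_le _ _)) ?_
  rw [Fintype.card_piFinset, Finset.prod_const, Finset.card_univ, Fintype.card_fin, Nat.cast_pow]
  refine pow_le_pow_left₀ (Nat.cast_nonneg _) ?_ n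
  rw [Int.card_Icc]
  have hm : 0 ≤ gridBd ε ρ := Int.ceil_nonneg (by positivity)
  have hm2 : (gridBd ε ρ : ℝ) ≤ ρ / ε + 1 := (Int.ceil_lt_add_one _).le
  have hc : (((gridBd ε ρ + 1 - -gridBd ε ρ).toNat : ℕ) : ℝ) = 2 * (gridBd ε ρ : ℝ) + 1 := by
    rw [← Int.cast_natCast, Int.toNat_of_nonneg (by omega)]
    push_cast; ring
  rw [hc]; linarith

lemma gridBall_upper {ε : ℝ} (hε : 0 < ε) (S : Finset (Fin n → ℤ)) (x : Sp n) {ρ : ℝ}
    (hρ : 0 ≤ ρ) (h : ∀ g ∈ S, ‖gp ε g - x‖ ≤ ρ) :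
    (S.card : ℝ) * ε ^ n ≤ (ρ + Real.sqrt n * ε) ^ n * ballVol n := by
  rw [← vol_closedBall x (add_nonneg hρ (by positivity))]
  refine grid_count_le hε S _ measure_closedBall_lt_top.ne fun g hg z hz => ?_
  rw [mem_closedBall, dist_eq_norm]
  have := norm_sub_rd hε z
  rw [show rd ε z = g from hz] at this
  calc ‖z - x‖ ≤ ‖z - gp ε g‖ + ‖gp ε g - x‖ := norm_sub_le_norm_sub_add_norm_sub _ _ _
    _ ≤ _ := by linarith [h g hg]

lemma gridBall_lower {ε ρ : ℝ} (hε : 0 < ε) (hρ : Real.sqrt n * ε ≤ ρ) :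
    (ρ - Real.sqrt n * ε) ^ n * ballVol n ≤ ((gridBall n ε ρ).card : ℝ) * ε ^ n := by
  rw [← vol_closedBall (0 : Sp n) (sub_nonneg.2 hρ)]
  refine le_grid_count hε _ _ fun z hz => (mem_gridBall hε).2 ?_
  rw [mem_closedBall, dist_zero_right] at hz
  have h1 := norm_sub_rd hε z
  calc ‖gp ε (rd ε z)‖ ≤ ‖z‖ + ‖gp ε (rd ε z) - z‖ := norm_le_norm_add_norm_sub' _ _
    _ ≤ ρ := by rw [norm_sub_rev]; linarith

end

end Vale.Agent.P230
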