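import Mathlib

/-!
P230 helper: finite product probability on subsets and a weighted Janson inequality,
proved from the FKG inequality.
-/

open Finset Real

namespace Vale.Agent.P230

noncomputable section

open scoped Classical

variable {C : Type*} [Fintype C] [DecidableEq C]

/-- Product Bernoulli weight on subsets of `C`. -/
def wt (p : ℝ) (ω : Finset C) : ℝ := ∏ c, if c ∈ ω then p else 1 - p

/-- Indicator of a proposition, real valued. -/
def ind (P : Prop) : ℝ := if P then 1 else 0

lemma ind_nonneg (P : Prop) : 0 ≤ ind P := by unfold ind; split_ifs <;> norm_num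
lemma ind_le_one (P : Prop) : ind P ≤ 1 := by unfold ind; split_ifs <;> norm_num
lemma ind_mono {P Q : Prop} (h : P → Q) : ind P ≤ ind Q := by
  unfold ind; split_ifs <;> simp_all
lemma ind_and (P Q : Prop) : ind (P ∧ Q) = ind P * ind Q := by
  unfold ind; split_ifs <;> simp_all
lemma ind_true {P : Prop} (h : P) : ind P = 1 := by simp [ind, h]
lemma ind_false {P : Prop} (h : ¬ P) : ind P = 0 := by simp [ind, h]

lemma wt_nonneg {p : ℝ} (h0 : 0 ≤ p) (h1 : p ≤ 1) (ω : Finset C) : 0 ≤ wt p ω := by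
  refine Finset.prod_nonneg fun c _ => ?_
  split_ifs <;> linarith

lemma wt_sum (p : ℝ) : ∑ ω : Finset C, wt p ω = 1 := by
  have := Finset.prod_add (fun _ : C => p) (fun _ => 1 - p) Finset.univ
  simp only [add_sub_cancel, Finset.prod_const_one, Finset.powerset_univ] at this
  rw [this]
  refine Finset.sum_congr rfl fun ω _ => ?_
  unfold wt
  rw [Finset.prod_ite]
  congr 2 <;> ext c <;> simp

lemma wt_modular (p : ℝ) (a b : Finset C) :
    wt p a * wt p b = wt p (a ⊓ b) * wt p (a ⊔ b) := by
  unfold wt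
  rw [← Finset.prod_mul_distrib, ← Finset.prod_mul_distrib]
  refine Finset.prod_congr rfl fun c _ => ?_
  by_cases ha : c ∈ a <;> by_cases hb : c ∈ b <;> simp [ha, hb] <;> ring

/-- Expectation. -/
def ex (p : ℝ) (f : Finset C → ℝ) : ℝ := ∑ ω : Finset C, wt p ω * f ω

lemma ex_const (p c : ℝ) : ex (C := C) p (fun _ => c) = c := by
  simp [ex, ← Finset.sum_mul, wt_sum]

lemma ex_mono {p : ℝ} (h0 : 0 ≤ p) (h1 : p ≤ 1) {f g : Finset C → ℝ} (h : ∀ ω, f ω ≤ g ω) :
    ex p f ≤ ex p g :=
  Finset.sum_le_sum fun ω _ => mul_le_mul_of_nonneg_left (h ω) (wt_nonneg h0 h1 ω)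

lemma ex_nonneg {p : ℝ} (h0 : 0 ≤ p) (h1 : p ≤ 1) {f : Finset C → ℝ} (h : ∀ ω, 0 ≤ f ω) :
    0 ≤ ex p f :=
  Finset.sum_nonneg fun ω _ => mul_nonneg (wt_nonneg h0 h1 ω) (h ω)

lemma ex_sum {ι : Type*} (s : Finset ι) (p : ℝ) (f : ι → Finset C → ℝ) :
    ex p (fun ω => ∑ i ∈ s, f i ω) = ∑ i ∈ s, ex p (f i) := by
  simp only [ex, Finset.mul_sum]
  rw [Finset.sum_comm]

lemma ex_smul (p a : ℝ) (f : Finset C → ℝ) : ex p (fun ω => a * f ω) = a * ex p f := by
  simp only [ex, Finset.mul_sum]
  exact Finset.sum_congr rfl fun ω _ => by ring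

/-- Removing one required coordinate. -/
lemma ex_insert (p : ℝ) (c : C) (h : Finset C → ℝ) (hh : ∀ ω, c ∉ ω → h (insert c ω) = h ω) :
    ex p (fun ω => ind (c ∈ ω) * h ω) = p * ex p h := by
  have hu : (Finset.univ : Finset (Finset C)) = (insert c (Finset.univ.erase c)).powerset := by
    rw [Finset.insert_erase (Finset.mem_univ c), Finset.powerset_univ]
  unfold ex
  rw [hu, Finset.sum_powerset_insert (Finset.notMem_erase c _),
    Finset.sum_powerset_insert (Finset.notMem_erase c _), mul_add, Finset.mul_sum, Finset.mul_sum,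
    ← Finset.sum_add_distrib, ← Finset.sum_add_distrib]
  refine Finset.sum_congr rfl fun t ht => ?_
  have hct : c ∉ t := fun hc => by simpa using Finset.mem_powerset.1 ht hc
  obtain ⟨r, hr, hr'⟩ : ∃ r, wt p t = (1 - p) * r ∧ wt p (insert c t) = p * r := by
    refine ⟨∏ x ∈ Finset.univ.erase c, if x ∈ t then p else 1 - p, ?_, ?_⟩
    · unfold wt
      rw [← Finset.mul_prod_erase Finset.univ _ (Finset.mem_univ c)]
      simp [hct]
    · unfold wt
      rw [← Finset.mul_prod_erase Finset.univ _ (Finset.mem_univ c)]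
      simp only [Finset.mem_insert_self, if_true]
      congr 1
      refine Finset.prod_congr rfl fun x hx => ?_
      simp [Finset.mem_insert, Finset.ne_of_mem_erase hx]
  dsimp only
  rw [hr, hr', hh t hct, ind_false hct, ind_true (Finset.mem_insert_self c t)]
  ring

/-- Removing a required set of coordinates. -/
lemma ex_subset (p : ℝ) (S : Finset C) (h : Finset C → ℝ)
    (hh : ∀ c ∈ S, ∀ ω, c ∉ ω → h (insert c ω) = h ω) :
    ex p (fun ω => ind (S ⊆ ω) * h ω) = p ^ S.card * ex p h := by
  induction S using Finset.induction_on with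
  | empty => simp [ind_true]
  | @insert c S hc ih =>
    have h1 : (fun ω => ind (insert c S ⊆ ω) * h ω)
        = fun ω => ind (c ∈ ω) * (ind (S ⊆ ω) * h ω) := by
      funext ω
      rw [← mul_assoc, ← ind_and]
      congr 2
      exact propext Finset.insert_subset_iff
    rw [h1, ex_insert, ih (fun d hd => hh d (Finset.mem_insert_of_mem hd)),
      Finset.card_insert_of_notMem hc, pow_succ]
    · ring
    · intro ω hω
      rw [hh c (Finset.mem_insert_self c S) ω hω]
      congr 2
      refine propext ⟨fun hs x hx => ?_, fun hs => hs.trans (Finset.subset_insert _ _)⟩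
      rcases Finset.mem_insert.1 (hs hx) with rfl | h2
      · exact absurd hx hc
      · exact h2

lemma ex_subset_one (p : ℝ) (S : Finset C) :
    ex p (fun ω => ind (S ⊆ ω)) = p ^ S.card := by
  simpa [ex_const] using ex_subset p S (fun _ => 1) (fun _ _ _ _ => rfl)

lemma ex_union (p : ℝ) (S T : Finset C) :
    ex p (fun ω => ind (S ⊆ ω) * ind (T ⊆ ω)) = p ^ (S ∪ T).card := by
  rw [← ex_subset_one p (S ∪ T)]
  congr 1
  funext ω
  rw [← ind_and]
  congr 1
  exact propext Finset.union_subset_iff.symm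

lemma exp_tangent (x m : ℝ) : Real.exp (-m) * (1 - (x - m)) ≤ Real.exp (-x) := by
  have h := Real.add_one_le_exp (-(x - m))
  have h2 : Real.exp (-x) = Real.exp (-m) * Real.exp (-(x - m)) := by
    rw [← Real.exp_add]; ring_nf
  rw [h2]
  exact mul_le_mul_of_nonneg_left (by linarith) (Real.exp_pos _).le

/-- Conditional FKG for decreasing functions bounded by one. -/
lemma fkg_cond {p : ℝ} (h0 : 0 ≤ p) (h1 : p ≤ 1) (S : Finset C) (f g : Finset C → ℝ)
    (hf : Antitone f) (hg : Antitone g) (hf1 : ∀ ω, f ω ≤ 1) (hg1 : ∀ ω, g ω ≤ 1) :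
    ex p (fun ω => ind (S ⊆ ω) * f ω) * ex p (fun ω => ind (S ⊆ ω) * g ω)
      ≤ p ^ S.card * ex p (fun ω => ind (S ⊆ ω) * (f ω * g ω)) := by
  have key := fkg (μ := fun ω => wt p ω * ind (S ⊆ ω)) (f := fun ω => 1 - f ω)
    (g := fun ω => 1 - g ω)
    (fun ω => mul_nonneg (wt_nonneg h0 h1 ω) (ind_nonneg _))
    (fun ω => sub_nonneg.2 (hf1 ω)) (fun ω => sub_nonneg.2 (hg1 ω))
    (fun a b hab => sub_le_sub_left (hf hab) _) (fun a b hab => sub_le_sub_left (hg hab) _)
    (by
      intro a b
      rw [mul_mul_mul_comm, mul_mul_mul_comm (wt p (a ⊓ b)), ← wt_modular]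
      refine mul_le_mul_of_nonneg_left ?_ (mul_nonneg (wt_nonneg h0 h1 a) (wt_nonneg h0 h1 b))
      rw [← ind_and, ← ind_and]
      exact ind_mono fun h => ⟨Finset.subset_inter h.1 h.2, h.1.trans Finset.subset_union_left⟩)
  have e : ∀ F : Finset C → ℝ, (∑ ω, wt p ω * ind (S ⊆ ω) * F ω)
      = ex p (fun ω => ind (S ⊆ ω) * F ω) := fun F =>
    Finset.sum_congr rfl fun ω _ => by ring
  simp only [mul_one, mul_sub, sub_mul, one_mul, Finset.sum_sub_distrib] at key
  have eS : (∑ ω, wt p ω * ind (S ⊆ ω)) = p ^ S.card := ex_subset_one p S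
  simp only [e, eS] at key
  have e2 : ∀ F : Finset C → ℝ, (∑ ω, wt p ω * ind (S ⊆ ω) * (F ω)) = 
      ex p (fun ω => ind (S ⊆ ω) * F ω) := e
  nlinarith [key]

variable {ι : Type*} [Fintype ι]

/-- Weighted Janson inequality: the probability that none of the events `S i ⊆ ω` with positive
weight happens. -/
theorem janson {p : ℝ} (h0 : 0 < p) (h1 : p ≤ 1) (a : ι → ℝ) (ha : ∀ i, 0 ≤ a i)
    (S : ι → Finset C) {m D : ℝ} (hm : 0 < m) (hD : 0 < D)
    (hmu : m ≤ ∑ i, a i * p ^ (S i).card)
    (hDel : ∑ i, ∑ j, a i * a j * (ind (¬ Disjoint (S i) (S j)) * p ^ (S i ∪ S j).card) ≤ D) :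
    ex p (fun ω => ind (∀ i, 0 < a i → ¬ S i ⊆ ω)) ≤ Real.exp (-(m ^ 2 / (3 * D))) := by
  set M := ∑ i, a i * p ^ (S i).card with hM
  have hM0 : 0 < M := hm.trans_le hmu
  set X : Finset C → ℝ := fun ω => ∑ i, a i * ind (S i ⊆ ω) with hX
  have hXmono : Monotone X := fun s t hst => Finset.sum_le_sum fun i _ =>
    mul_le_mul_of_nonneg_left (ind_mono fun h => h.trans hst) (ha i)
  set φ : ℝ → ℝ := fun t => ex p (fun ω => Real.exp (-(t * X ω))) with hφ
  have hp0 := h0.le
  set dl : ι → ℝ := fun i =>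
    ∑ j, a j * (ind (¬ Disjoint (S i) (S j)) * p ^ (S i ∪ S j).card) with hdl
  -- the key inequality for one event
  have key : ∀ t, 0 ≤ t → ∀ i,
      p ^ (S i).card * Real.exp (-(t * dl i / p ^ (S i).card)) * φ t
        ≤ ex p (fun ω => ind (S i ⊆ ω) * Real.exp (-(t * X ω))) := by
    intro t ht i
    set Y : Finset C → ℝ := fun ω =>
      ∑ j, a j * (ind (¬ Disjoint (S i) (S j)) * ind (S j ⊆ ω))
    set Z : Finset C → ℝ := fun ω =>
      ∑ j, a j * (ind (Disjoint (S i) (S j)) * ind (S j ⊆ ω))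
    have hYZ : ∀ ω, X ω = Y ω + Z ω := fun ω => by
      simp only [hX, Y, Z, ← Finset.sum_add_distrib]
      refine Finset.sum_congr rfl fun j _ => ?_
      by_cases h : Disjoint (S i) (S j)
      · rw [ind_false (not_not.2 h), ind_true h]; ring
      · rw [ind_true h, ind_false h]; ring
    have hYm : Monotone Y := fun s u hsu => Finset.sum_le_sum fun j _ =>
      mul_le_mul_of_nonneg_left
        (mul_le_mul_of_nonneg_left (ind_mono fun h => h.trans hsu) (ind_nonneg _)) (ha j)
    have hZm : Monotone Z := fun s u hsu => Finset.sum_le_sum fun j _ =>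
      mul_le_mul_of_nonneg_left
        (mul_le_mul_of_nonneg_left (ind_mono fun h => h.trans hsu) (ind_nonneg _)) (ha j)
    have hY0 : ∀ ω, 0 ≤ Y ω := fun ω =>
      Finset.sum_nonneg fun j _ => mul_nonneg (ha j) (mul_nonneg (ind_nonneg _) (ind_nonneg _))
    have hZ0 : ∀ ω, 0 ≤ Z ω := fun ω =>
      Finset.sum_nonneg fun j _ => mul_nonneg (ha j) (mul_nonneg (ind_nonneg _) (ind_nonneg _))
    have hfk := fkg_cond hp0 h1 (S i) (fun ω => Real.exp (-(t * Y ω)))
      (fun ω => Real.exp (-(t * Z ω)))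
      (fun s u hsu => Real.exp_le_exp.2 (by nlinarith [hYm hsu]))
      (fun s u hsu => Real.exp_le_exp.2 (by nlinarith [hZm hsu]))
      (fun ω => Real.exp_le_one_iff.2 (by nlinarith [hY0 ω]))
      (fun ω => Real.exp_le_one_iff.2 (by nlinarith [hZ0 ω]))
    have hP : (0 : ℝ) < p ^ (S i).card := pow_pos h0 _
    -- the part independent of `S i`
    have hg : p ^ (S i).card * φ t
        ≤ ex p (fun ω => ind (S i ⊆ ω) * Real.exp (-(t * Z ω))) := by
      rw [ex_subset p (S i) (fun ω => Real.exp (-(t * Z ω)))]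
      · refine mul_le_mul_of_nonneg_left (ex_mono hp0 h1 fun ω => ?_) hP.le
        exact Real.exp_le_exp.2 (by nlinarith [hYZ ω, hY0 ω])
      · intro c hc ω hω
        have : Z (insert c ω) = Z ω := by
          refine Finset.sum_congr rfl fun j _ => ?_
          by_cases h : Disjoint (S i) (S j)
          · congr 3
            refine propext ⟨fun hs x hx => ?_, fun hs => hs.trans (Finset.subset_insert _ _)⟩
            rcases Finset.mem_insert.1 (hs hx) with rfl | h2
            · exact absurd hx (Finset.disjoint_left.1 h hc)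
            · exact h2
          · simp [ind_false h]
        simp only [this]
    -- the part depending on `S i`
    have hY : ex p (fun ω => ind (S i ⊆ ω) * Y ω) = dl i := by
      have : (fun ω => ind (S i ⊆ ω) * Y ω) = fun ω =>
          ∑ j, a j * ind (¬ Disjoint (S i) (S j)) * (ind (S i ⊆ ω) * ind (S j ⊆ ω)) := by
        funext ω
        simp only [Y, Finset.mul_sum]
        exact Finset.sum_congr rfl fun j _ => by ring
      rw [this, ex_sum]
      refine Finset.sum_congr rfl fun j _ => ?_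
      rw [ex_smul, ex_union]; ring
    have hf : p ^ (S i).card * Real.exp (-(t * dl i / p ^ (S i).card))
        ≤ ex p (fun ω => ind (S i ⊆ ω) * Real.exp (-(t * Y ω))) := by
      set m0 := t * dl i / p ^ (S i).card with hm0
      have h2 : ex p (fun ω => ind (S i ⊆ ω) * (Real.exp (-m0) * (1 - (t * Y ω - m0))))
          ≤ ex p (fun ω => ind (S i ⊆ ω) * Real.exp (-(t * Y ω))) :=
        ex_mono hp0 h1 fun ω => mul_le_mul_of_nonneg_left (exp_tangent _ _) (ind_nonneg _)
      have h3 : (fun ω => ind (S i ⊆ ω) * (Real.exp (-m0) * (1 - (t * Y ω - m0))))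
          = fun ω => Real.exp (-m0) * (1 + m0) * ind (S i ⊆ ω)
              + (-(Real.exp (-m0) * t)) * (ind (S i ⊆ ω) * Y ω) := by
        funext ω; ring
      have h4 : m0 * p ^ (S i).card = t * dl i := by rw [hm0]; field_simp
      have h5 : ex p (fun ω => Real.exp (-m0) * (1 + m0) * ind (S i ⊆ ω)
              + (-(Real.exp (-m0) * t)) * (ind (S i ⊆ ω) * Y ω))
          = Real.exp (-m0) * (1 + m0) * p ^ (S i).card + (-(Real.exp (-m0) * t)) * dl i := by
        rw [← ex_subset_one p (S i), ← hY, ← ex_smul, ← ex_smul]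
        simp only [ex, mul_add, Finset.sum_add_distrib]
      rw [h3, h5] at h2
      nlinarith [h2, congrArg (fun x => Real.exp (-m0) * x) h4]
    have hZf : ex p (fun ω => ind (S i ⊆ ω)
          * (Real.exp (-(t * Y ω)) * Real.exp (-(t * Z ω))))
        = ex p (fun ω => ind (S i ⊆ ω) * Real.exp (-(t * X ω))) := by
      congr 1; funext ω; rw [← Real.exp_add, hYZ ω]; ring_nf
    rw [hZf] at hfk
    have hA : 0 ≤ p ^ (S i).card * φ t :=
      mul_nonneg hP.le (ex_nonneg hp0 h1 fun ω => (Real.exp_pos _).le)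
    have := mul_le_mul hf hg hA (le_trans (by positivity) hf)
    nlinarith [this, hfk]
  have hdl0 : ∀ i, 0 ≤ dl i := fun i => Finset.sum_nonneg fun j _ =>
    mul_nonneg (ha j) (mul_nonneg (ind_nonneg _) (pow_nonneg hp0 _))
  have hsumdl : ∑ i, a i * dl i ≤ D := by
    refine le_trans (le_of_eq ?_) hDel
    simp only [hdl, Finset.mul_sum, mul_assoc]
  set T := M / D with hT
  have hT0 : 0 < T := div_pos hM0 hD
  have hbound : ∀ t ∈ Set.Icc 0 T,
      M * Real.exp (-1) * φ t
        ≤ ex p (fun ω => X ω * Real.exp (-(t * X ω))) := by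
    intro t ht
    have hφ0 : 0 ≤ φ t := ex_nonneg hp0 h1 fun ω => (Real.exp_pos _).le
    have h2 : ∑ i, a i * (p ^ (S i).card * Real.exp (-(t * dl i / p ^ (S i).card)) * φ t)
        ≤ ex p (fun ω => X ω * Real.exp (-(t * X ω))) := by
      calc ∑ i, a i * (p ^ (S i).card * Real.exp (-(t * dl i / p ^ (S i).card)) * φ t)
          ≤ ∑ i, a i * ex p (fun ω => ind (S i ⊆ ω) * Real.exp (-(t * X ω))) :=
            Finset.sum_le_sum fun i _ => mul_le_mul_of_nonneg_left (key t ht.1 i) (ha i)
        _ = ex p (fun ω => X ω * Real.exp (-(t * X ω))) := by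
            simp only [← ex_smul, ← ex_sum]
            congr 1; funext ω; simp only [hX, Finset.sum_mul, mul_assoc]
    refine le_trans ?_ h2
    have h3 : ∀ i, a i * p ^ (S i).card * (Real.exp (-1) * (2 - t * dl i / p ^ (S i).card))
        ≤ a i * (p ^ (S i).card * Real.exp (-(t * dl i / p ^ (S i).card))) := fun i => by
      rw [mul_assoc]
      refine mul_le_mul_of_nonneg_left (mul_le_mul_of_nonneg_left ?_ (pow_nonneg hp0 _)) (ha i)
      have := exp_tangent (t * dl i / p ^ (S i).card) 1
      linarith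
    have h4 : M * Real.exp (-1)
        ≤ ∑ i, a i * (p ^ (S i).card * Real.exp (-(t * dl i / p ^ (S i).card))) := by
      refine le_trans ?_ (Finset.sum_le_sum fun i _ => h3 i)
      have e : ∀ i, a i * p ^ (S i).card * (Real.exp (-1) * (2 - t * dl i / p ^ (S i).card))
          = Real.exp (-1) * (2 * (a i * p ^ (S i).card) - t * (a i * dl i)) := fun i => by
        have : p ^ (S i).card ≠ 0 := (pow_pos h0 _).ne'
        field_simp
      simp only [e]
      rw [← Finset.mul_sum, Finset.sum_sub_distrib, ← Finset.mul_sum, ← Finset.mul_sum, mul_comm,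
        ← hM]
      refine mul_le_mul_of_nonneg_left ?_ (Real.exp_pos _).le
      have h5 : t * ∑ i, a i * dl i ≤ T * D :=
        mul_le_mul ht.2 hsumdl (Finset.sum_nonneg fun i _ => mul_nonneg (ha i) (hdl0 i)) hT0.le
      have h6 : T * D = M := by rw [hT]; field_simp
      linarith
    calc M * Real.exp (-1) * φ t
        ≤ (∑ i, a i * (p ^ (S i).card * Real.exp (-(t * dl i / p ^ (S i).card)))) * φ t :=
          mul_le_mul_of_nonneg_right h4 hφ0
      _ = _ := by rw [Finset.sum_mul]; exact Finset.sum_congr rfl fun i _ => by ring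
  have hderiv : ∀ t, HasDerivAt φ (-ex p (fun ω => X ω * Real.exp (-(t * X ω)))) t := by
    intro t
    have h2 : ∀ ω : Finset C, HasDerivAt (fun s => wt p ω * Real.exp (-(s * X ω)))
        (-(wt p ω * (X ω * Real.exp (-(t * X ω))))) t := by
      intro ω
      have e : HasDerivAt (fun s => -(s * X ω)) (-X ω) t := by
        simpa using ((hasDerivAt_id' t).mul_const (X ω)).fun_neg
      exact (e.exp.const_mul (wt p ω)).congr_deriv (by ring)
    have := HasDerivAt.fun_sum (u := Finset.univ) (fun ω _ => h2 ω)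
    simp only [ex, ← Finset.sum_neg_distrib]
    exact this
  set k := M * Real.exp (-1) with hk
  set h : ℝ → ℝ := fun t => φ t * Real.exp (k * t) with hh
  have hhd : ∀ t, HasDerivAt h
      ((-ex p (fun ω => X ω * Real.exp (-(t * X ω))) + k * φ t) * Real.exp (k * t)) t := by
    intro t
    have e : HasDerivAt (fun s => k * s) k t := by
      simpa using (hasDerivAt_id' t).const_mul k
    exact ((hderiv t).mul e.exp).congr_deriv (by ring)
  have hanti : AntitoneOn h (Set.Icc 0 T) := by
    refine antitoneOn_of_deriv_nonpos (convex_Icc 0 T)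
      (fun t _ => (hhd t).continuousAt.continuousWithinAt)
      (fun t _ => (hhd t).differentiableAt.differentiableWithinAt) fun t ht => ?_
    rw [(hhd t).deriv]
    refine mul_nonpos_of_nonpos_of_nonneg ?_ (Real.exp_pos _).le
    linarith [hbound t (interior_subset ht)]
  have hhT : φ T * Real.exp (k * T) ≤ 1 := by
    have := hanti (Set.left_mem_Icc.2 hT0.le) (Set.right_mem_Icc.2 hT0.le) hT0.le
    simpa [hh, hφ, ex_const] using this
  have hstart : ex p (fun ω => ind (∀ i, 0 < a i → ¬ S i ⊆ ω)) ≤ φ T := by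
    refine ex_mono hp0 h1 fun ω => ?_
    by_cases hω : ∀ i, 0 < a i → ¬ S i ⊆ ω
    · have : X ω = 0 := Finset.sum_eq_zero fun i _ => by
        rcases (ha i).eq_or_lt with h2 | h2
        · rw [← h2, zero_mul]
        · rw [ind_false (hω i h2), mul_zero]
      rw [ind_true hω, this]; simp
    · rw [ind_false hω]; exact (Real.exp_pos _).le
  refine hstart.trans ?_
  have h7 : φ T ≤ Real.exp (-(k * T)) := by
    rw [Real.exp_neg, ← one_div, le_div_iff₀ (Real.exp_pos _)]; exact hhT
  refine h7.trans (Real.exp_le_exp.2 (neg_le_neg ?_))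
  have he : (1 : ℝ) / 3 ≤ Real.exp (-1) := by
    rw [Real.exp_neg, one_div]
    exact inv_anti₀ (Real.exp_pos _) (by linarith [Real.exp_one_lt_d9])
  have hmM : m ^ 2 ≤ M ^ 2 := by nlinarith
  calc m ^ 2 / (3 * D) ≤ M ^ 2 / (3 * D) := by gcongr
    _ = M * (1 / 3) * T := by rw [hT]; field_simp
    _ ≤ k * T := by rw [hk]; gcongr

end

end Vale.Agent.P230
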