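import Mathlib
import Vale.Agent.P230.Geometry

/-!
P230 helper: parameters and elementary numerical estimates for large dimension.
-/

namespace Vale.Agent.P230

noncomputable section

/-- Grid mesh. -/
def eps (n : ℕ) : ℝ := 1 / (n : ℝ) ^ 4
/-- Rounding error. -/
def del (n : ℕ) : ℝ := Real.sqrt n * eps n
/-- Height of the cutting planes. -/
def tt : ℝ := 199 / 200
/-- Separation distance. -/
def sep (n : ℕ) : ℝ := 1 / Real.sqrt (Real.sqrt n)
/-- Depth limit. -/
def dep (n : ℕ) : ℕ := ⌈Real.sqrt (Real.sqrt n)⌉₊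
/-- Largest number of relevant centres. -/
def cfgSize (n : ℕ) : ℕ := n ^ 3 * 3 ^ n
/-- Cost budget. -/
def budget (n : ℕ) : ℝ := (n : ℝ) * Real.log n / 10 ^ 6

/-- The dimensions considered. -/
def Large (n : ℕ) : Prop := (10 : ℝ) ^ 20 ≤ n

variable {n : ℕ}

lemma Large.ge (h : Large n) : (10 : ℝ) ^ 20 ≤ n := h
lemma Large.pos (h : Large n) : (0 : ℝ) < n := lt_of_lt_of_le (by norm_num) h
lemma Large.nat_pos (h : Large n) : 0 < n := by exact_mod_cast h.pos

lemma Large.sqrt_ge (h : Large n) : (10 : ℝ) ^ 10 ≤ Real.sqrt n := by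
  refine Real.le_sqrt_of_sq_le ?_
  rw [← pow_mul]; exact h

lemma Large.qroot_ge (h : Large n) : (10 : ℝ) ^ 5 ≤ Real.sqrt (Real.sqrt n) := by
  refine Real.le_sqrt_of_sq_le ?_
  rw [← pow_mul]; exact h.sqrt_ge

lemma qroot_sq (n : ℕ) : Real.sqrt (Real.sqrt n) ^ 2 = Real.sqrt n :=
  Real.sq_sqrt (Real.sqrt_nonneg _)

lemma sqrt_sq' (n : ℕ) : Real.sqrt (n : ℝ) ^ 2 = n := Real.sq_sqrt (Nat.cast_nonneg _)

lemma Large.log_le (h : Large n) : Real.log n ≤ 4 * Real.sqrt (Real.sqrt n) := by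
  have h1 : Real.log (Real.sqrt (Real.sqrt n)) = Real.log n / 4 := by
    rw [Real.log_sqrt (Real.sqrt_nonneg _), Real.log_sqrt (Nat.cast_nonneg _)]; ring
  have := Real.log_le_sub_one_of_pos (lt_of_lt_of_le (by norm_num) h.qroot_ge)
  linarith

lemma Large.log_ge (h : Large n) : 20 ≤ Real.log n := by
  rw [Real.le_log_iff_exp_le h.pos]
  refine le_trans ?_ h.ge
  calc Real.exp 20 = Real.exp 1 ^ 20 := by rw [← Real.exp_nat_mul]; norm_num
    _ ≤ (10 : ℝ) ^ 20 := by gcongr; linarith [Real.exp_one_lt_d9]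

lemma eps_pos (h : Large n) : 0 < eps n := by have := h.pos; unfold eps; positivity

lemma del_pos (h : Large n) : 0 < del n := mul_pos (Real.sqrt_pos.2 h.pos) (eps_pos h)

lemma del_le (h : Large n) : del n ≤ 1 / (n : ℝ) ^ 3 := by
  have h1 : Real.sqrt n ≤ n := by
    rw [Real.sqrt_le_iff]
    exact ⟨h.pos.le, by nlinarith [h.ge, (by norm_num : (1 : ℝ) ≤ 10 ^ 20)]⟩
  calc del n ≤ (n : ℝ) * eps n := mul_le_mul_of_nonneg_right h1 (eps_pos h).le
    _ = 1 / (n : ℝ) ^ 3 := by unfold eps; have := h.pos; field_simp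

lemma n_del_le (h : Large n) : (n : ℝ) * del n ≤ 1 / 10000 := by
  refine (mul_le_mul_of_nonneg_left (del_le h) h.pos.le).trans ?_
  rw [mul_one_div, div_le_iff₀ (by have := h.pos; positivity)]
  have hn := h.ge
  nlinarith [mul_nonneg h.pos.le (mul_nonneg (sub_nonneg.2 hn) (sub_nonneg.2 hn))]

lemma del_le_small (h : Large n) : del n ≤ 1 / 10000 := by
  refine le_trans ?_ (n_del_le h)
  refine le_mul_of_one_le_left (del_pos h).le ?_
  exact le_trans (by norm_num) h.ge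

lemma sep_pos (h : Large n) : 0 < sep n :=
  one_div_pos.2 (lt_of_lt_of_le (by norm_num) h.qroot_ge)

lemma sep_sq (h : Large n) : sep n ^ 2 = 1 / Real.sqrt n := by
  rw [sep, div_pow, one_pow, qroot_sq]

lemma sep_sq_le (h : Large n) : sep n ^ 2 ≤ 1 / 10000 := by
  rw [sep_sq h]
  exact one_div_le_one_div_of_le (by norm_num) (le_trans (by norm_num) h.sqrt_ge)

lemma del_le_sep (h : Large n) : del n ≤ sep n ^ 2 / 10000 := by
  rw [sep_sq h]
  have h1 : (10000 : ℝ) * Real.sqrt n ≤ (n : ℝ) ^ 3 := by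
    have : (n : ℝ) ≤ (n : ℝ) ^ 3 := le_self_pow₀ (le_trans (by norm_num) h.ge) (by norm_num)
    nlinarith [h.sqrt_ge, sqrt_sq' n]
  refine (del_le h).trans ?_
  rw [div_div]
  exact one_div_le_one_div_of_le (by have := h.sqrt_ge; positivity) (by linarith)

lemma del_le_sep_self (h : Large n) : del n ≤ sep n := by
  have h1 : sep n ≤ 1 := by
    rw [sep, div_le_one (lt_of_lt_of_le (by norm_num) h.qroot_ge)]
    exact le_trans (by norm_num) h.qroot_ge
  have := del_le_sep h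
  nlinarith [sep_pos h, mul_le_mul_of_nonneg_left h1 (sep_pos h).le]

lemma dep_le (h : Large n) : (dep n : ℝ) ≤ Real.sqrt (Real.sqrt n) + 1 :=
  (Nat.ceil_lt_add_one (Real.sqrt_nonneg _)).le

lemma dep_le_n (h : Large n) : (dep n : ℝ) ≤ (n : ℝ) / 10000 := by
  have := dep_le h
  nlinarith [h.qroot_ge, qroot_sq n, sqrt_sq' n, h.sqrt_ge]

lemma budget_ge (h : Large n) : 1 ≤ budget n := by
  unfold budget
  rw [le_div_iff₀ (by norm_num), one_mul]
  nlinarith [h.ge, h.log_ge]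

lemma budget_le_sq (h : Large n) : budget n ≤ (n : ℝ) ^ 2 := by
  unfold budget
  have h1 : Real.log n ≤ n := (Real.log_le_sub_one_of_pos h.pos).trans (by linarith)
  rw [div_le_iff₀ (by norm_num)]
  nlinarith [h.pos, h1]

lemma small_ok (h : Large n) :
    ((budget n) ^ 2 / Real.exp (-(804 * (1 + (dep n : ℝ))))) ^ 2
      * ((budget n) ^ 2 * Real.exp (-Real.sqrt n)) ≤ 1 := by
  have hb0 : 0 ≤ budget n := le_trans zero_le_one (budget_ge h)
  have hn : (budget n) ^ 6 ≤ Real.exp (12 * Real.log n) := by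
    rw [show (12 : ℝ) * Real.log n = Real.log ((n : ℝ) ^ 12) by
      rw [Real.log_pow]; norm_num, Real.exp_log (by have := h.pos; positivity)]
    calc (budget n) ^ 6 ≤ ((n : ℝ) ^ 2) ^ 6 := pow_le_pow_left₀ hb0 (budget_le_sq h) 6
      _ = (n : ℝ) ^ 12 := by ring
  have e : ((budget n) ^ 2 / Real.exp (-(804 * (1 + (dep n : ℝ))))) ^ 2
      * ((budget n) ^ 2 * Real.exp (-Real.sqrt n))
      = (budget n) ^ 6 * Real.exp (1608 * (1 + (dep n : ℝ)) - Real.sqrt n) := by
    rw [Real.exp_neg (804 * _), div_inv_eq_mul, mul_pow, ← Real.exp_nat_mul,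
      show (1608 : ℝ) * (1 + (dep n : ℝ)) - Real.sqrt n
        = ((2 : ℕ) : ℝ) * (804 * (1 + (dep n : ℝ))) + -Real.sqrt n by push_cast; ring,
      Real.exp_add]
    ring
  rw [e]
  refine (mul_le_mul_of_nonneg_right hn (Real.exp_pos _).le).trans ?_
  rw [← Real.exp_add, Real.exp_le_one_iff]
  nlinarith [dep_le h, h.log_le, qroot_sq n, h.qroot_ge]

lemma exp_six : (400 : ℝ) ≤ Real.exp 6 := by
  calc (400 : ℝ) ≤ (2.7182818283 : ℝ) ^ 6 := by norm_num
    _ ≤ Real.exp 1 ^ 6 := by gcongr; exact Real.exp_one_gt_d9.le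
    _ = Real.exp 6 := by rw [← Real.exp_nat_mul]; norm_num

lemma exp_eight : (1920 : ℝ) ≤ Real.exp 8 := by
  calc (1920 : ℝ) ≤ (2.7182818283 : ℝ) ^ 8 := by norm_num
    _ ≤ Real.exp 1 ^ 8 := by gcongr; exact Real.exp_one_gt_d9.le
    _ = Real.exp 8 := by rw [← Real.exp_nat_mul]; norm_num

lemma pow_eq_exp (h : Large n) (k : ℕ) : (n : ℝ) ^ k = Real.exp (k * Real.log n) := by
  rw [Real.exp_nat_mul, Real.exp_log h.pos]

lemma near_ok (h : Large n) :
    1920 * (n : ℝ) ^ 10 * ((18 * sep n) ^ n * Real.exp (15000 * budget n)) ≤ 1 := by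
  have hs : sep n = Real.exp (-(Real.log n / 4)) := by
    rw [sep, one_div, Real.exp_neg, ← Real.exp_log (lt_of_lt_of_le (by norm_num) h.qroot_ge),
      Real.log_sqrt (Real.sqrt_nonneg _), Real.log_sqrt (Nat.cast_nonneg _)]
    ring_nf
  have h18 : (18 : ℝ) ≤ Real.exp 3 := by
    calc (18 : ℝ) ≤ (2.7182818283 : ℝ) ^ 3 := by norm_num
      _ ≤ Real.exp 1 ^ 3 := by gcongr; exact Real.exp_one_gt_d9.le
      _ = Real.exp 3 := by rw [← Real.exp_nat_mul]; norm_num
  have h1 : (18 * sep n) ^ n ≤ Real.exp ((n : ℝ) * (3 - Real.log n / 4)) := by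
    rw [Real.exp_nat_mul, sub_eq_add_neg, Real.exp_add, ← hs]
    have := sep_pos h
    gcongr
  calc 1920 * (n : ℝ) ^ 10 * ((18 * sep n) ^ n * Real.exp (15000 * budget n))
      ≤ Real.exp 8 * Real.exp ((10 : ℕ) * Real.log n)
        * (Real.exp ((n : ℝ) * (3 - Real.log n / 4)) * Real.exp (15000 * budget n)) := by
        rw [← pow_eq_exp h]
        have := h.pos
        have := sep_pos h
        gcongr
        exact exp_eight
    _ ≤ 1 := by
        rw [← Real.exp_add, ← Real.exp_add, ← Real.exp_add, Real.exp_le_one_iff]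
        unfold budget
        push_cast
        nlinarith [mul_le_mul_of_nonneg_left h.log_ge h.pos.le, h.ge, h.log_ge,
          mul_le_mul_of_nonneg_right h.ge (show (0 : ℝ) ≤ Real.log n by linarith [h.log_ge])]

lemma far_ok (h : Large n) :
    3840 * (n : ℝ) ^ 18 * (Real.exp (1608 * (1 + (dep n : ℝ))) * (909 / 1000 : ℝ) ^ n) ≤ 1 := by
  have h1 : (909 / 1000 : ℝ) ^ n ≤ Real.exp ((n : ℝ) * (-(91 / 1000))) := by
    rw [Real.exp_nat_mul]
    refine pow_le_pow_left₀ (by norm_num) ?_ n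
    have := Real.add_one_le_exp (-(91 / 1000) : ℝ)
    linarith
  have h2 : (3840 : ℝ) ≤ Real.exp 12 := by
    rw [show (12 : ℝ) = 6 + 6 by norm_num, Real.exp_add]
    nlinarith [exp_six]
  calc 3840 * (n : ℝ) ^ 18 * (Real.exp (1608 * (1 + (dep n : ℝ))) * (909 / 1000 : ℝ) ^ n)
      ≤ Real.exp 12 * Real.exp ((18 : ℕ) * Real.log n)
        * (Real.exp (1608 * (1 + (dep n : ℝ))) * Real.exp ((n : ℝ) * (-(91 / 1000)))) := by
        rw [← pow_eq_exp h]
        have := h.pos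
        gcongr
    _ ≤ 1 := by
        rw [← Real.exp_add, ← Real.exp_add, ← Real.exp_add, Real.exp_le_one_iff]
        push_cast
        have hs : (n : ℝ) = Real.sqrt (Real.sqrt n) ^ 4 := by
          rw [show (4 : ℕ) = 2 * 2 from rfl, pow_mul, qroot_sq, sqrt_sq']
        nlinarith [dep_le h, h.log_le, h.qroot_ge, h.sqrt_ge, qroot_sq n, sqrt_sq' n, hs]

end

end Vale.Agent.P230
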