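import Mathlib
import Vale.Agent.P230.Geometry
import Vale.Agent.P230.Params
import Vale.Agent.P230.Janson

/-!
P230 helper: the family of candidate cutting planes and its one and two point statistics.
-/

open MeasureTheory Metric Set
open scoped RealInnerProductSpace Pointwise

namespace Vale.Agent.P230

noncomputable section

open scoped Classical

variable {n : ℕ}

/-- Index type of candidate cutting planes. -/
abbrev Cand (n : ℕ) := ↥(gridBall n (eps n) 1)

/-- Direction of a candidate plane. -/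
def dir (c : Cand n) : Sp n := gp (eps n) c.1

/-- A fixed unit vector. -/
def e0 (n : ℕ) : Sp n := if h : 0 < n then EuclideanSpace.single ⟨0, h⟩ 1 else 0

/-- Reference cap volume. -/
def cv (n : ℕ) : ℝ := capVol (e0 n) tt

/-- Selection probability. -/
def prob (n : ℕ) : ℝ := eps n ^ n / (8 * cv n)

/-- Candidates cutting off `z` with margin. -/
def candOf (z : Sp n) : Finset (Cand n) :=
  Finset.univ.filter fun c => tt + 3 * del n < ⟪dir c, z⟫

lemma e0_norm (h : Large n) : ‖e0 n‖ = 1 := by simp [e0, h.nat_pos]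

lemma dir_norm (h : Large n) (c : Cand n) : ‖dir c‖ ≤ 1 := (mem_gridBall (eps_pos h)).1 c.2

lemma cv_pos (h : Large n) : 0 < cv n :=
  lt_of_lt_of_le (mul_pos (pow_pos (by norm_num [tt]) _) ballVol_pos)
    (capVol_lower (e0_norm h) (by norm_num [tt]) (by norm_num [tt]))

lemma prob_pos (h : Large n) : 0 < prob n :=
  div_pos (pow_pos (eps_pos h) _) (mul_pos (by norm_num) (cv_pos h))

lemma prob_le_one (h : Large n) : prob n ≤ 1 := by
  unfold prob
  rw [div_le_one (mul_pos (by norm_num) (cv_pos h))]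
  have h1 := capVol_lower (e0_norm h) (s := tt) (by norm_num [tt]) (by norm_num [tt])
  have h2 := ballVol_lower h.nat_pos
  have hs : 0 < Real.sqrt n := Real.sqrt_pos.2 h.pos
  have h3 : eps n ≤ (1 - tt) / 4 * (1 / Real.sqrt n) := by
    have h4 : del n ≤ (1 - tt) / 4 := by
      have h5 := n_del_le h
      unfold tt
      nlinarith [h.ge, del_pos h]
    rw [mul_one_div, le_div_iff₀ hs, mul_comm]
    exact h4
  calc eps n ^ n ≤ ((1 - tt) / 4 * (1 / Real.sqrt n)) ^ n :=
        pow_le_pow_left₀ (eps_pos h).le h3 n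
    _ = ((1 - tt) / 4) ^ n * (1 / Real.sqrt n) ^ n := by rw [mul_pow]
    _ ≤ ((1 - tt) / 4) ^ n * ballVol n :=
        mul_le_mul_of_nonneg_left h2 (pow_nonneg (by norm_num [tt]) _)
    _ ≤ cv n := h1
    _ ≤ 8 * cv n := by linarith [cv_pos h]

lemma count_to_prob (h : Large n) {k : ℕ} {x : ℝ}
    (hk : (k : ℝ) * eps n ^ n ≤ x * cv n) : prob n * k ≤ x / 8 := by
  unfold prob
  have hc := cv_pos h
  rw [div_mul_eq_mul_div, div_le_iff₀ (by positivity)]
  nlinarith [hk]

lemma prob_to_count (h : Large n) {k : ℕ} {x : ℝ}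
    (hk : x * cv n ≤ (k : ℝ) * eps n ^ n) : x / 8 ≤ prob n * k := by
  unfold prob
  have hc := cv_pos h
  rw [div_mul_eq_mul_div, le_div_iff₀ (by positivity)]
  nlinarith [hk]

lemma two_pow_bound {a : ℝ} (ha : -1 ≤ a) (h : (n : ℝ) * |a| ≤ 1 / 4) :
    (1 + a) ^ n ≤ 2 := by
  calc (1 + a) ^ n ≤ Real.exp a ^ n :=
        pow_le_pow_left₀ (by linarith) (by linarith [Real.add_one_le_exp a]) n
    _ = Real.exp ((n : ℝ) * a) := by rw [Real.exp_nat_mul]
    _ ≤ Real.exp (1 / 2) := by
        refine Real.exp_le_exp.2 ?_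
        nlinarith [le_abs_self a, Nat.cast_nonneg (α := ℝ) n]
    _ ≤ 2 := by
        have hmul : Real.exp (1 / 2) * Real.exp (1 / 2) = Real.exp 1 := by
          rw [← Real.exp_add]; norm_num
        nlinarith [Real.exp_pos (1 / 2 : ℝ), Real.exp_one_lt_d9]

lemma half_pow_bound (h : Large n) : 1 / 2 ≤ (1 - del n) ^ n := by
  have := one_add_mul_le_pow (a := -del n) (by linarith [del_le_small h]) n
  rw [← sub_eq_add_neg] at this
  linarith [n_del_le h]

lemma one_add_del_pow (h : Large n) : (1 + del n) ^ n ≤ 2 :=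
  two_pow_bound (by linarith [del_pos h])
    (by rw [abs_of_pos (del_pos h)]; linarith [n_del_le h])

lemma cand_count_le (h : Large n) {w : Sp n} {a : ℝ} (ha : 0 < a) (S : Finset (Cand n))
    (hS : ∀ c ∈ S, a + del n * ‖w‖ < ⟪w, dir c⟫) :
    (S.card : ℝ) * eps n ^ n ≤
      (1 + del n) ^ n * capVol (e0 n) (a / ((1 + del n) * ‖w‖)) := by
  have hε := eps_pos h
  have hδ := del_pos h
  rcases S.eq_empty_or_nonempty with rfl | ⟨c0, hc0⟩
  · simp only [Finset.card_empty, Nat.cast_zero, zero_mul]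
    exact mul_nonneg (by positivity) measureReal_nonneg
  have hw : 0 < ‖w‖ := by
    rw [norm_pos_iff]; rintro rfl
    have := hS c0 hc0
    simp at this; linarith
  set e := ‖w‖⁻¹ • w with he
  have he1 : ‖e‖ = 1 := by
    rw [he, norm_smul, norm_inv, norm_norm, inv_mul_cancel₀ hw.ne']
  rw [capVol_rot (v := e) (by rw [e0_norm h, he1])]
  set A := (fun z : Sp n => (1 + del n) • z) '' cap e (a / ((1 + del n) * ‖w‖)) with hA
  have hvol : volume.real A = (1 + del n) ^ n * capVol e (a / ((1 + del n) * ‖w‖)) := by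
    rw [hA, image_smul, measureReal_def, Measure.addHaar_smul, ENNReal.toReal_mul,
      ENNReal.toReal_ofReal (abs_nonneg _), finrank_euclideanSpace_fin,
      abs_of_nonneg (by positivity)]
    rfl
  have hcard : (S.card : ℝ) = ((S.image Subtype.val).card : ℝ) := by
    rw [Finset.card_image_of_injective _ Subtype.val_injective]
  rw [← hvol, hcard]
  refine grid_count_le hε _ A ?_ fun g hg z hz => ?_
  · rw [hA, image_smul, Measure.addHaar_smul]
    exact ENNReal.mul_ne_top ENNReal.ofReal_ne_top (cap_ne_top _ _)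
  obtain ⟨c, hc, rfl⟩ := Finset.mem_image.1 hg
  have hd := norm_sub_rd hε z
  rw [show rd (eps n) z = c.1 from hz, show gp (eps n) c.1 = dir c from rfl] at hd
  have hd' : ‖z - dir c‖ ≤ del n := hd
  refine ⟨(1 + del n)⁻¹ • z, ⟨?_, ?_⟩, ?_⟩
  · rw [norm_smul, norm_inv, Real.norm_of_nonneg (by positivity),
      inv_mul_le_one₀ (by positivity)]
    calc ‖z‖ ≤ ‖dir c‖ + ‖z - dir c‖ := norm_le_norm_add_norm_sub' _ _
      _ ≤ _ := by linarith [dir_norm h c]
  · rw [he, real_inner_smul_left, real_inner_smul_right]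
    have h1 := (abs_le.1 (abs_real_inner_le_norm w (z - dir c))).1
    rw [inner_sub_right] at h1
    have h2 : a < ⟪w, z⟫ := by nlinarith [hS c hc, mul_le_mul_of_nonneg_left hd' hw.le]
    rw [div_lt_iff₀ (by positivity)]
    field_simp
    exact h2
  · show (1 + del n) • (1 + del n)⁻¹ • z = z
    rw [smul_inv_smul₀]
    positivity

lemma tt_le_div (h : Large n) {z : Sp n} (hz : ‖z‖ ≤ 1 + del n) (hz0 : 0 < ‖z‖) :
    tt * (1 - 3 * del n) ≤ tt / ((1 + del n) * ‖z‖) := by
  have hδ := del_pos h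
  rw [le_div_iff₀ (mul_pos (by linarith) hz0)]
  have h1 : (1 + del n) * ‖z‖ ≤ (1 + del n) * (1 + del n) :=
    mul_le_mul_of_nonneg_left hz (by linarith)
  have h2 : (1 - 3 * del n) * ((1 + del n) * (1 + del n)) ≤ 1 := by
    nlinarith [hδ, pow_pos hδ 2, pow_pos hδ 3]
  have h3 : 0 ≤ 1 - 3 * del n := by linarith [del_le_small h]
  have ht : (0 : ℝ) < tt := by norm_num [tt]
  nlinarith [mul_le_mul_of_nonneg_left h1 (mul_nonneg ht.le h3),
    mul_le_mul_of_nonneg_left h2 ht.le]

/-- Expected number of selected planes cutting a point is at most one. -/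
lemma cand_upper (h : Large n) {z : Sp n} (hz : ‖z‖ ≤ 1 + del n) :
    prob n * (candOf z).card ≤ 1 := by
  rcases (candOf z).eq_empty_or_nonempty with he | ⟨c0, hc0⟩
  · simp [he]
  have hδ := del_pos h
  have ht : tt = 199 / 200 := rfl
  have hz0 : 0 < ‖z‖ := by
    rw [norm_pos_iff]; rintro rfl
    have := (Finset.mem_filter.1 hc0).2
    simp at this; linarith
  have key := cand_count_le h (w := z) (a := tt) (by norm_num [tt]) (candOf z) (fun c hc => by
    have := (Finset.mem_filter.1 hc).2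
    rw [real_inner_comm] at this
    nlinarith [mul_le_mul_of_nonneg_left hz hδ.le, del_le_small h])
  set s0 := tt * (1 - 3 * del n) with hs0
  have hs01 : s0 ≤ tt := by rw [hs0, ht]; nlinarith
  have hshift : capVol (e0 n) s0 ≤ 2 * cv n := by
    have h1 := capVol_shift_lower (e0_norm h) hs01 (show tt < 1 by norm_num [tt])
    set k := (1 - tt) / (1 - s0)
    have hden : (0 : ℝ) < 1 - s0 := by rw [ht] at hs01; linarith
    have hk : 1 - 600 * del n ≤ k := by
      rw [le_div_iff₀ hden, hs0, ht]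
      nlinarith [del_le_small h]
    have hk2 : 1 / 2 ≤ k ^ n := by
      refine le_trans ?_ (pow_le_pow_left₀ (by linarith [del_le_small h]) hk n)
      have := one_add_mul_le_pow (a := -(600 * del n)) (by linarith [del_le_small h]) n
      rw [← sub_eq_add_neg] at this
      linarith [n_del_le h]
    have hc0 : 0 ≤ capVol (e0 n) s0 := measureReal_nonneg
    show _ ≤ 2 * capVol (e0 n) tt
    nlinarith [mul_le_mul_of_nonneg_right hk2 hc0]
  have h2 : ((candOf z).card : ℝ) * eps n ^ n ≤ 4 * cv n := by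
    refine key.trans ?_
    have h3 : capVol (e0 n) (tt / ((1 + del n) * ‖z‖)) ≤ capVol (e0 n) s0 :=
      capVol_anti _ (tt_le_div h hz hz0)
    calc (1 + del n) ^ n * capVol (e0 n) (tt / ((1 + del n) * ‖z‖))
        ≤ 2 * (2 * cv n) :=
          mul_le_mul (one_add_del_pow h) (h3.trans hshift) measureReal_nonneg (by norm_num)
      _ = 4 * cv n := by ring
  linarith [count_to_prob h h2]

/-- Expected number of selected planes cutting a point at depth `d`. -/
lemma cand_lower (h : Large n) {z : Sp n} {d : ℝ} (hz : ‖z‖ ≤ 1 + del n) (hd0 : 0 ≤ d)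
    (hd : (1 + del n) - d / n ≤ ‖z‖) (hdn : d ≤ (n : ℝ) / 10000) :
    Real.exp (-(803 * (1 + d))) ≤ prob n * (candOf z).card := by
  have hε := eps_pos h
  have hδ := del_pos h
  have hn := h.pos
  have hδs := del_le_small h
  set x := d / n with hx
  have hx0 : 0 ≤ x := div_nonneg hd0 hn.le
  have hx1 : x ≤ 1 / 10000 := by rw [hx, div_le_iff₀ hn]; linarith
  have hz0 : 0 < ‖z‖ := by linarith
  set e := ‖z‖⁻¹ • z with he
  have he1 : ‖e‖ = 1 := by
    rw [he, norm_smul, norm_inv, norm_norm, inv_mul_cancel₀ hz0.ne']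
  set s := (tt + 5 * del n) / ((1 - del n) * ‖z‖) with hs
  have hd1 : 0 < (1 - del n) * ‖z‖ := mul_pos (by linarith) hz0
  have hst : tt ≤ s := by
    rw [hs, le_div_iff₀ hd1]
    have : (1 - del n) * ‖z‖ ≤ 1 := by nlinarith
    nlinarith [show (0 : ℝ) < tt by norm_num [tt]]
  have hst2 : s - tt ≤ 2 * (6 * del n + x) := by
    rw [hs, div_sub' hd1.ne', div_le_iff₀ hd1]
    have h1 : 1 - del n - x ≤ (1 - del n) * ‖z‖ := by
      nlinarith [mul_le_mul_of_nonneg_left hd (show (0 : ℝ) ≤ 1 - del n by linarith)]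
    have ht : (tt : ℝ) = 199 / 200 := rfl
    rw [ht]
    nlinarith [mul_le_mul_of_nonneg_left h1 (show (0 : ℝ) ≤ 6 * del n + x by linarith)]
  have hs1 : s < 1 := by
    have ht : (tt : ℝ) = 199 / 200 := rfl
    linarith
  set A := (fun g : Sp n => (1 - del n) • g) '' cap e s with hA
  have hvol : volume.real A = (1 - del n) ^ n * capVol e s := by
    rw [hA, image_smul, measureReal_def, Measure.addHaar_smul, ENNReal.toReal_mul,
      ENNReal.toReal_ofReal (abs_nonneg _), finrank_euclideanSpace_fin,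
      abs_of_nonneg (pow_nonneg (by linarith) _)]
    rfl
  have key : volume.real A ≤ ((candOf z).card : ℝ) * eps n ^ n := by
    have hcard : ((candOf z).card : ℝ) = (((candOf z).image Subtype.val).card : ℝ) := by
      rw [Finset.card_image_of_injective _ Subtype.val_injective]
    rw [hcard]
    refine le_grid_count hε _ A ?_
    rintro _ ⟨g, hg, rfl⟩
    set w := (1 - del n) • g with hw
    have hdw : ‖w - gp (eps n) (rd (eps n) w)‖ ≤ del n := norm_sub_rd hε w
    have hwn : ‖w‖ ≤ 1 - del n := by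
      rw [hw, norm_smul, Real.norm_of_nonneg (by linarith)]
      exact mul_le_of_le_one_right (by linarith) hg.1
    have hmem : rd (eps n) w ∈ gridBall n (eps n) 1 := by
      rw [mem_gridBall hε]
      calc ‖gp (eps n) (rd (eps n) w)‖ ≤ ‖w‖ + ‖gp (eps n) (rd (eps n) w) - w‖ :=
            norm_le_norm_add_norm_sub' _ _
        _ ≤ 1 := by rw [norm_sub_rev]; linarith
    refine Finset.mem_image.2 ⟨⟨_, hmem⟩, Finset.mem_filter.2 ⟨Finset.mem_univ _, ?_⟩, rfl⟩
    show tt + 3 * del n < ⟪gp (eps n) (rd (eps n) w), z⟫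
    have h1 := (abs_le.1 (abs_real_inner_le_norm (gp (eps n) (rd (eps n) w) - w) z)).1
    rw [inner_sub_left, norm_sub_rev] at h1
    have hg2 := hg.2
    rw [hs, he, real_inner_smul_left, div_lt_iff₀ hd1] at hg2
    have e1 : ‖z‖⁻¹ * ⟪z, g⟫ * ((1 - del n) * ‖z‖) = (1 - del n) * ⟪z, g⟫ := by field_simp
    rw [e1] at hg2
    have e2 : ⟪w, z⟫ = (1 - del n) * ⟪z, g⟫ := by
      rw [hw, real_inner_smul_left, real_inner_comm]
    nlinarith [mul_le_mul_of_nonneg_right hdw hz0.le]
  rw [hvol, capVol_rot (v := e0 n) (by rw [e0_norm h, he1])] at key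
  have h1 := capVol_shift_lower (e0_norm h) hst hs1
  set k := (1 - s) / (1 - tt) with hk
  have hk1 : Real.exp (-(800 * (6 * del n + x))) ≤ k := by
    have hu : k = 1 - 200 * (s - tt) := by rw [hk]; unfold tt; ring
    have hu2 : 1 - 400 * (6 * del n + x) ≤ k := by linarith
    refine le_trans ?_ hu2
    set u := 400 * (6 * del n + x) with hudef
    have hu3 : 0 ≤ u := by rw [hudef]; linarith
    have hu4 : u ≤ 1 / 2 := by rw [hudef]; linarith
    rw [show -(800 * (6 * del n + x)) = -(2 * u) by rw [hudef]; ring, Real.exp_neg]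
    refine inv_le_of_inv_le₀ (by linarith) ?_
    calc (1 - u)⁻¹ ≤ 2 * u + 1 := by
          rw [inv_le_iff_one_le_mul₀ (by linarith)]; nlinarith
      _ ≤ Real.exp (2 * u) := Real.add_one_le_exp _
  have hk2 : Real.exp (-(800 * (1 + d))) ≤ k ^ n := by
    refine le_trans ?_ (pow_le_pow_left₀ (Real.exp_pos _).le hk1 n)
    rw [← Real.exp_nat_mul]
    refine Real.exp_le_exp.2 ?_
    have : (n : ℝ) * x = d := by rw [hx]; field_simp
    nlinarith [n_del_le h]
  have hx2 : 1 / 2 * Real.exp (-(800 * (1 + d))) * cv n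
      ≤ ((candOf z).card : ℝ) * eps n ^ n := by
    refine le_trans ?_ key
    rw [mul_assoc]
    refine mul_le_mul (half_pow_bound h)
      (le_trans (mul_le_mul_of_nonneg_right hk2 (cv_pos h).le) h1)
      (mul_nonneg (Real.exp_pos _).le (cv_pos h).le) (pow_nonneg (by linarith) _)
  refine le_trans ?_ (prob_to_count h hx2)
  have h16 : Real.exp (-(3 : ℝ)) ≤ 1 / 16 := by
    rw [Real.exp_neg, one_div]
    refine inv_anti₀ (by norm_num) ?_
    calc (16 : ℝ) ≤ (2.7182818283 : ℝ) ^ 3 := by norm_num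
      _ ≤ Real.exp 1 ^ 3 := by gcongr; exact Real.exp_one_gt_d9.le
      _ = Real.exp 3 := by rw [← Real.exp_nat_mul]; norm_num
  calc Real.exp (-(803 * (1 + d))) ≤ Real.exp (-3 + -(800 * (1 + d))) := by
        gcongr; linarith
    _ = Real.exp (-3) * Real.exp (-(800 * (1 + d))) := Real.exp_add _ _
    _ ≤ 1 / 16 * Real.exp (-(800 * (1 + d))) :=
        mul_le_mul_of_nonneg_right h16 (Real.exp_pos _).le
    _ = _ := by ring

lemma pair_threshold (h : Large n) {N : ℝ} (hN : 0 < N)
    (hsq : N ^ 2 ≤ 4 * (1 + del n) ^ 2 - sep n ^ 2) :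
    tt + tt * sep n ^ 2 / 16 ≤ 2 * tt / ((1 + del n) * N) := by
  have hδ := del_pos h
  have hD2 := sep_sq_le h
  have hδD := del_le_sep h
  rw [le_div_iff₀ (mul_pos (by linarith) hN)]
  set D2 := sep n ^ 2 with hD2def
  have hD20 : 0 ≤ D2 := by positivity
  have e2 : (1 + del n) ^ 2 ≤ 1 + 3 * del n := by nlinarith
  have e3 : (1 + del n) ^ 2 * N ^ 2 ≤ 4 - 7 / 10 * D2 := by
    refine (mul_le_mul e2 (show N ^ 2 ≤ 4 * (1 + 3 * del n) - D2 by linarith) (sq_nonneg _)
      (by linarith)).trans ?_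
    nlinarith
  have e1 : (1 + D2 / 16) ^ 2 ≤ 1 + 13 / 100 * D2 := by nlinarith
  have hsq' : ((1 + D2 / 16) * ((1 + del n) * N)) ^ 2 ≤ 4 := by
    rw [mul_pow, mul_pow]
    refine (mul_le_mul e1 e3 (by positivity) (by linarith)).trans ?_
    nlinarith
  have h2 : (1 + D2 / 16) * ((1 + del n) * N) ≤ 2 := by
    have h4 : ((1 + D2 / 16) * ((1 + del n) * N)) ^ 2 ≤ 2 ^ 2 := by linarith
    exact le_of_pow_le_pow_left₀ two_ne_zero (by norm_num) h4
  calc (tt + tt * D2 / 16) * ((1 + del n) * N)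
      = tt * ((1 + D2 / 16) * ((1 + del n) * N)) := by ring
    _ ≤ tt * 2 := mul_le_mul_of_nonneg_left h2 (by norm_num [tt])
    _ = 2 * tt := mul_comm _ _

/-- Two separated points are rarely cut by the same plane. -/
lemma cand_pair (h : Large n) {z z' : Sp n} (hz : ‖z‖ ≤ 1 + del n) (hz' : ‖z'‖ ≤ 1 + del n)
    (hsep : sep n ≤ ‖z - z'‖) :
    prob n * (candOf z ∩ candOf z').card ≤ Real.exp (-Real.sqrt n) := by
  rcases (candOf z ∩ candOf z').eq_empty_or_nonempty with he | ⟨c0, hc0⟩
  · simp [he, (Real.exp_pos _).le]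
  have hδ := del_pos h
  have hD := sep_pos h
  have hD2 := sep_sq_le h
  have hδD := del_le_sep h
  have hδs := del_le_small h
  have ht : tt = 199 / 200 := rfl
  have hw : 0 < ‖z + z'‖ := by
    rw [norm_pos_iff]; intro h0
    rw [Finset.mem_inter, candOf, candOf, Finset.mem_filter, Finset.mem_filter] at hc0
    have h1 : ⟪dir c0, z⟫ + ⟪dir c0, z'⟫ = 0 := by rw [← inner_add_right, h0, inner_zero_right]
    linarith [hc0.1.2, hc0.2.2]
  have key := cand_count_le h (w := z + z') (a := 2 * tt) (by norm_num [tt])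
    (candOf z ∩ candOf z') (fun c hc => by
      rw [Finset.mem_inter, candOf, candOf, Finset.mem_filter, Finset.mem_filter] at hc
      rw [inner_add_left, real_inner_comm (dir c) z, real_inner_comm (dir c) z']
      have : ‖z + z'‖ ≤ 6 := by linarith [norm_add_le z z']
      nlinarith [hc.1.2, hc.2.2])
  set d := tt * sep n ^ 2 / 16 with hd
  have hpar := parallelogram_law_with_norm ℝ z z'
  have hsq : ‖z + z'‖ ^ 2 ≤ 4 * (1 + del n) ^ 2 - sep n ^ 2 := by
    nlinarith [pow_le_pow_left₀ (norm_nonneg z) hz 2, pow_le_pow_left₀ (norm_nonneg z') hz' 2,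
      pow_le_pow_left₀ hD.le hsep 2]
  have hs : tt + d ≤ 2 * tt / ((1 + del n) * ‖z + z'‖) :=
    pair_threshold h hw hsq
  have hd0 : 0 ≤ d := by rw [hd, ht]; positivity
  have hup := capVol_shift_upper (e0_norm h) (s := tt) (d := d) (γ := 1 + 2 * sep n ^ 2)
    (by norm_num [tt]) (by norm_num [tt]) hd0 (by nlinarith) (by
      rw [hd, ht]
      have : 2 * (199 / 200 : ℝ) * (199 / 200 * sep n ^ 2 / 16) / (1 - (199 / 200) ^ 2)
          = (2 * (199 / 200) * (199 / 200) / 16 / (1 - (199 / 200) ^ 2)) * sep n ^ 2 := by ring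
      rw [this]
      nlinarith [sq_nonneg (sep n)])
  have hg : Real.exp (Real.sqrt n - 1) ≤ (1 + 2 * sep n ^ 2) ^ (n - 1) := by
    have h1 : Real.exp (sep n ^ 2) ≤ 1 + 2 * sep n ^ 2 := by
      have h2 := Real.abs_exp_sub_one_le (x := sep n ^ 2)
        (by rw [abs_of_nonneg (sq_nonneg _)]; linarith)
      rw [abs_of_nonneg (show (0 : ℝ) ≤ sep n ^ 2 from sq_nonneg _)] at h2
      linarith [le_abs_self (Real.exp (sep n ^ 2) - 1)]
    refine le_trans ?_ (pow_le_pow_left₀ (Real.exp_pos _).le h1 _)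
    rw [← Real.exp_nat_mul, Nat.cast_sub h.nat_pos, Nat.cast_one, sep_sq h]
    refine Real.exp_le_exp.2 ?_
    have hsn : 1 ≤ Real.sqrt n := le_trans (by norm_num) h.sqrt_ge
    rw [mul_one_div, le_div_iff₀ (by linarith)]
    nlinarith [sqrt_sq' n]
  have h4 : capVol (e0 n) (2 * tt / ((1 + del n) * ‖z + z'‖))
      ≤ cv n * Real.exp (1 - Real.sqrt n) := by
    refine (capVol_anti _ hs).trans ?_
    have h5 : Real.exp (Real.sqrt n - 1) * capVol (e0 n) (tt + d) ≤ cv n :=
      le_trans (mul_le_mul_of_nonneg_right hg measureReal_nonneg) hup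
    have h6 : Real.exp (1 - Real.sqrt n) * Real.exp (Real.sqrt n - 1) = 1 := by
      rw [← Real.exp_add]; ring_nf; exact Real.exp_zero
    calc capVol (e0 n) (tt + d)
        = Real.exp (1 - Real.sqrt n) * (Real.exp (Real.sqrt n - 1) * capVol (e0 n) (tt + d)) := by
          rw [← mul_assoc, h6, one_mul]
      _ ≤ Real.exp (1 - Real.sqrt n) * cv n :=
          mul_le_mul_of_nonneg_left h5 (Real.exp_pos _).le
      _ = _ := mul_comm _ _
  have h7 : ((candOf z ∩ candOf z').card : ℝ) * eps n ^ n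
      ≤ 8 * Real.exp (-Real.sqrt n) * cv n := by
    refine key.trans ?_
    calc (1 + del n) ^ n * capVol (e0 n) (2 * tt / ((1 + del n) * ‖z + z'‖))
        ≤ 2 * (cv n * Real.exp (1 - Real.sqrt n)) :=
          mul_le_mul (one_add_del_pow h) h4 measureReal_nonneg (by norm_num)
      _ ≤ _ := by
          rw [show 1 - Real.sqrt n = 1 + -Real.sqrt n by ring, Real.exp_add]
          nlinarith [Real.exp_one_lt_d9, mul_pos (cv_pos h) (Real.exp_pos (-Real.sqrt n))]
  linarith [count_to_prob h h7]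

end

end Vale.Agent.P230
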