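import Mathlib
import Vale.Agent.P230.Janson

/-!
P230 helper: spread distributions of witness sets, built from repeated random rounds.
-/

open Finset Real

namespace Vale.Agent.P230

noncomputable section

open scoped Classical

variable {C : Type*} [Fintype C] [DecidableEq C] {V : Type*} [Fintype V] {R : ℕ}

lemma ex_disjoint (p : ℝ) (U : Finset C) :
    ex p (fun ω => ind (Disjoint ω U)) = (1 - p) ^ U.card := by
  have h := Finset.prod_add (fun c : C => if c ∈ U then 0 else p) (fun _ => 1 - p) Finset.univ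
  have h1 : ∏ c : C, ((if c ∈ U then 0 else p) + (1 - p)) = (1 - p) ^ U.card := by
    have : ∀ c : C, (if c ∈ U then 0 else p) + (1 - p) = if c ∈ U then 1 - p else 1 := by
      intro c; split_ifs <;> ring
    simp only [this]
    rw [Finset.prod_ite_mem, Finset.univ_inter, Finset.prod_const]
  rw [← h1, h, Finset.powerset_univ]
  refine Finset.sum_congr rfl fun ω _ => ?_
  dsimp only
  by_cases hd : Disjoint ω U
  · rw [ind_true hd, mul_one]
    unfold wt
    rw [Finset.prod_ite]
    congr 1
    · refine Finset.prod_congr (by ext; simp) fun c hc => ?_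
      simp [Finset.disjoint_left.1 hd hc]
    · exact Finset.prod_congr (by ext; simp) fun c _ => rfl
  · rw [ind_false hd, mul_zero]
    obtain ⟨c, hc, hcU⟩ := Finset.not_disjoint_iff.1 hd
    rw [Finset.prod_eq_zero hc (by simp [hcU]), zero_mul]

lemma ex_subset_disjoint {p : ℝ} (h0 : 0 ≤ p) (h1 : p ≤ 1) (T U : Finset C) :
    ex p (fun ω => ind (T ⊆ ω ∧ Disjoint ω U)) ≤ p ^ T.card * (1 - p) ^ U.card := by
  by_cases hd : Disjoint T U
  · have : (fun ω => ind (T ⊆ ω ∧ Disjoint ω U))
        = fun ω => ind (T ⊆ ω) * ind (Disjoint ω U) := funext fun ω => ind_and _ _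
    rw [this, ex_subset p T (fun ω => ind (Disjoint ω U)), ex_disjoint]
    intro c hc ω _
    simp [Finset.disjoint_left.1 hd hc]
  · refine le_trans (le_of_eq ?_)
      (mul_nonneg (pow_nonneg h0 _) (pow_nonneg (by linarith) _))
    refine Finset.sum_eq_zero fun ω _ => ?_
    dsimp only
    rw [ind_false, mul_zero]
    exact fun h => hd (Finset.disjoint_of_subset_left h.1 h.2)

/-- Weight of a sequence of rounds. -/
def wR (p : ℝ) (η : Fin R → Finset C) : ℝ := ∏ l, wt p (η l)

/-- Expectation over rounds. -/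
def exR (p : ℝ) (f : (Fin R → Finset C) → ℝ) : ℝ := ∑ η, wR p η * f η

lemma wR_nonneg {p : ℝ} (h0 : 0 ≤ p) (h1 : p ≤ 1) (η : Fin R → Finset C) : 0 ≤ wR p η :=
  Finset.prod_nonneg fun l _ => wt_nonneg h0 h1 _

lemma exR_prod (p : ℝ) (F : Fin R → Finset C → ℝ) :
    exR p (fun η => ∏ l, F l (η l)) = ∏ l, ex p (F l) := by
  simp only [exR, wR, ← Finset.prod_mul_distrib, ex]
  exact (Fintype.prod_sum (fun l ω => wt p ω * F l ω)).symm

lemma exR_const (p c : ℝ) : exR (C := C) (R := R) p (fun _ => c) = c := by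
  have h := exR_prod (C := C) (R := R) p (fun _ _ => (1 : ℝ))
  simp only [Finset.prod_const_one, ex_const] at h
  simp only [exR, mul_one] at h
  simp [exR, ← Finset.sum_mul, h]

lemma exR_mono {p : ℝ} (h0 : 0 ≤ p) (h1 : p ≤ 1) {f g : (Fin R → Finset C) → ℝ}
    (h : ∀ η, f η ≤ g η) : exR p f ≤ exR p g :=
  Finset.sum_le_sum fun η _ => mul_le_mul_of_nonneg_left (h η) (wR_nonneg h0 h1 η)

lemma exR_sum {ι : Type*} (s : Finset ι) (p : ℝ) (f : ι → (Fin R → Finset C) → ℝ) :
    exR p (fun η => ∑ i ∈ s, f i η) = ∑ i ∈ s, exR p (f i) := by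
  simp only [exR, Finset.mul_sum]
  rw [Finset.sum_comm]

lemma exR_smul (p a : ℝ) (f : (Fin R → Finset C) → ℝ) :
    exR p (fun η => a * f η) = a * exR p f := by
  simp only [exR, Finset.mul_sum]
  exact Finset.sum_congr rfl fun η _ => by ring

lemma ind_forall {ι : Type*} [Fintype ι] (P : ι → Prop) : ind (∀ i, P i) = ∏ i, ind (P i) := by
  by_cases h : ∀ i, P i
  · rw [ind_true h]; exact (Finset.prod_eq_one fun i _ => ind_true (h i)).symm
  · rw [ind_false h]
    push Not at h
    obtain ⟨i, hi⟩ := h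
    exact (Finset.prod_eq_zero (Finset.mem_univ i) (ind_false hi)).symm

variable (cand : V → Finset C)

/-- Rounds in which `v` is hit. -/
def hits (η : Fin R → Finset C) (v : V) : Finset (Fin R) :=
  Finset.univ.filter fun l => ¬ Disjoint (η l) (cand v)

/-- Index of the first round hitting `v` (and `R` if there is none). -/
def fr (η : Fin R → Finset C) (v : V) : ℕ :=
  (Finset.univ.filter fun l : Fin R => ∀ l' ≤ l, Disjoint (η l') (cand v)).card

/-- The witness of `v`: one candidate of the first round hitting it. -/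
def pick (η : Fin R → Finset C) (v : V) : Option C :=
  if h : (hits cand η v).Nonempty then
    some (Finset.not_disjoint_iff.1 (Finset.mem_filter.1 ((hits cand η v).min'_mem h)).2).choose
  else none

/-- The witness set. -/
def sel (η : Fin R → Finset C) : Finset C :=
  Finset.univ.filter fun d => ∃ v, pick cand η v = some d

lemma pick_spec {η : Fin R → Finset C} {v : V} {d : C} (h : pick cand η v = some d) :
    d ∈ cand v ∧ ∃ l : Fin R, d ∈ η l ∧ (l : ℕ) = fr cand η v ∧
      ∀ l' < l, Disjoint (η l') (cand v) := by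
  unfold pick at h
  split_ifs at h with hn
  rw [Option.some.injEq] at h
  have hc := (Finset.not_disjoint_iff.1
    (Finset.mem_filter.1 ((hits cand η v).min'_mem hn)).2).choose_spec
  rw [h] at hc
  have hlt : ∀ l' < (hits cand η v).min' hn, Disjoint (η l') (cand v) := by
    intro l' hl'
    by_contra hd
    exact absurd ((hits cand η v).min'_le l' (Finset.mem_filter.2 ⟨Finset.mem_univ _, hd⟩))
      (not_le.2 hl')
  refine ⟨hc.2, _, hc.1, ?_, hlt⟩
  unfold fr
  rw [← Fin.card_Iio]
  congr 1
  ext l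
  simp only [Finset.mem_Iio, Finset.mem_filter, Finset.mem_univ, true_and]
  refine ⟨fun hl l' hl' => hlt l' (lt_of_le_of_lt hl' hl), fun hl => ?_⟩
  by_contra hge
  exact (Finset.mem_filter.1 ((hits cand η v).min'_mem hn)).2 (hl _ (not_lt.1 hge))

lemma sel_subset (η : Fin R → Finset C) : sel cand η ⊆ Finset.univ.biUnion cand := by
  intro d hd
  obtain ⟨v, hv⟩ := (Finset.mem_filter.1 hd).2
  exact Finset.mem_biUnion.2 ⟨v, Finset.mem_univ _, (pick_spec cand hv).1⟩

lemma sel_owner {η : Fin R → Finset C} {T : Finset C} (hT : T ⊆ sel cand η) :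
    ∃ o : T → V, Function.Injective o ∧ ∀ d : T, pick cand η (o d) = some d.1 := by
  refine ⟨fun d => (Finset.mem_filter.1 (hT d.2)).2.choose, fun a b hab => ?_,
    fun d => (Finset.mem_filter.1 (hT d.2)).2.choose_spec⟩
  have h1 := (Finset.mem_filter.1 (hT a.2)).2.choose_spec
  have h2 := (Finset.mem_filter.1 (hT b.2)).2.choose_spec
  simp only at hab
  rw [hab, h2, Option.some.injEq] at h1
  exact Subtype.ext h1.symm

lemma card_sel_le (η : Fin R → Finset C) : (sel cand η).card ≤ Fintype.card V := by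
  obtain ⟨o, ho, -⟩ := sel_owner cand (subset_refl (sel cand η))
  simpa using Fintype.card_le_of_injective o ho

lemma exists_witness {η : Fin R → Finset C} {v : V} (h : (hits cand η v).Nonempty) :
    ∃ d ∈ sel cand η, d ∈ cand v := by
  refine ⟨_, Finset.mem_filter.2 ⟨Finset.mem_univ _, v, dif_pos h⟩, ?_⟩
  exact (Finset.not_disjoint_iff.1
    (Finset.mem_filter.1 ((hits cand η v).min'_mem h)).2).choose_spec.2

/-- Everything is hit, and not too late in total. -/
def Early (B : ℝ) (η : Fin R → Finset C) : Prop :=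
  (∀ v, (hits cand η v).Nonempty) ∧ ∑ v, Real.log (2 + (fr cand η v : ℝ)) ≤ B

lemma sum_inv_sq (R : ℕ) : ∑ l : Fin R, (((l : ℕ) : ℝ) + 2) ^ (-2 : ℤ) ≤ 1 := by
  rw [Fin.sum_univ_eq_sum_range (fun l => ((l : ℝ) + 2) ^ (-2 : ℤ)) R]
  suffices h : ∑ l ∈ Finset.range R, ((l : ℝ) + 2) ^ (-2 : ℤ) ≤ 1 - 1 / ((R : ℝ) + 1) by
    have : (0 : ℝ) ≤ 1 / ((R : ℝ) + 1) := by positivity
    linarith
  induction R with
  | zero => simp
  | succ R ih =>
    rw [Finset.sum_range_succ]
    have hR : (0 : ℝ) ≤ R := Nat.cast_nonneg R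
    have key : ((R : ℝ) + 2) ^ (-2 : ℤ) ≤ 1 / ((R : ℝ) + 1) - 1 / ((R : ℝ) + 2) := by
      rw [div_sub_div _ _ (by linarith) (by linarith), zpow_neg, zpow_ofNat, inv_eq_one_div,
        div_le_div_iff₀ (by positivity) (by positivity)]
      nlinarith
    push_cast
    rw [show (R : ℝ) + 1 + 1 = R + 2 by ring]
    linarith

/-- First bound: probability that `T` lies in an early witness set. -/
lemma early_bound {p : ℝ} (h0 : 0 ≤ p) (h1 : p ≤ 1) (B : ℝ) (T : Finset C) :
    exR (R := R) p (fun η => ind (Early cand B η ∧ T ⊆ sel cand η))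
      ≤ Real.exp (2 * B) * p ^ T.card := by
  set P : (T → Fin R) → ℝ := fun g => Real.exp (2 * B) * ∏ d, ((((g d : ℕ)) : ℝ) + 2) ^ (-2 : ℤ)
  have hP0 : ∀ g, 0 ≤ P g := fun g => by positivity
  have hle : ∀ η, ind (Early cand B η ∧ T ⊆ sel cand η)
      ≤ ∑ g : T → Fin R, P g * ind (∀ d : T, d.1 ∈ η (g d)) := by
    intro η
    by_cases h : Early cand B η ∧ T ⊆ sel cand η
    · obtain ⟨o, ho, hpick⟩ := sel_owner cand h.2
      choose g hg1 hg2 hg3 using fun d => (pick_spec cand (hpick d)).2
      rw [ind_true h]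
      refine le_trans ?_ (Finset.single_le_sum (fun g _ => mul_nonneg (hP0 g) (ind_nonneg _))
        (Finset.mem_univ g))
      rw [ind_true hg1, mul_one]
      have hsum : ∑ d : T, Real.log (2 + ((g d : ℕ) : ℝ)) ≤ B := by
        refine le_trans ?_ h.1.2
        simp only [hg2]
        rw [← Finset.sum_image (f := fun v => Real.log (2 + (fr cand η v : ℝ)))
          (g := o) (s := Finset.univ) (fun a _ b _ hab => ho hab)]
        refine Finset.sum_le_sum_of_subset_of_nonneg (Finset.subset_univ _) fun v _ _ => ?_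
        exact Real.log_nonneg (by linarith [(Nat.cast_nonneg (fr cand η v) : (0 : ℝ) ≤ _)])
      have e : ∏ d : T, (((g d : ℕ) : ℝ) + 2) ^ (-2 : ℤ)
          = Real.exp (-2 * ∑ d : T, Real.log (2 + ((g d : ℕ) : ℝ))) := by
        rw [Finset.mul_sum, Real.exp_sum]
        refine Finset.prod_congr rfl fun d _ => ?_
        rw [add_comm, ← Real.rpow_intCast, Real.rpow_def_of_pos (by positivity)]
        push_cast; ring_nf
      simp only [P]
      rw [e, ← Real.exp_add, Real.one_le_exp_iff]
      linarith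
    · rw [ind_false h]
      exact Finset.sum_nonneg fun g _ => mul_nonneg (hP0 g) (ind_nonneg _)
  refine (exR_mono h0 h1 hle).trans ?_
  rw [exR_sum]
  have hg : ∀ g : T → Fin R,
      exR p (fun η => ind (∀ d : T, d.1 ∈ η (g d))) = p ^ T.card := by
    intro g
    set Tl : Fin R → Finset C := fun l =>
      (Finset.univ.filter fun d : T => g d = l).image Subtype.val
    have e : (fun η : Fin R → Finset C => ind (∀ d : T, d.1 ∈ η (g d)))
        = fun η => ∏ l, ind (Tl l ⊆ η l) := by
      funext η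
      rw [← ind_forall]
      congr 1
      refine propext ⟨fun h l x hx => ?_, fun h d => h (g d) ?_⟩
      · obtain ⟨d, hd, rfl⟩ := Finset.mem_image.1 hx
        exact (Finset.mem_filter.1 hd).2 ▸ h d
      · exact Finset.mem_image.2 ⟨d, Finset.mem_filter.2 ⟨Finset.mem_univ _, rfl⟩, rfl⟩
    rw [e, exR_prod p (fun l ω => ind (Tl l ⊆ ω))]
    simp only [ex_subset_one, Tl, Finset.card_image_of_injective _ Subtype.val_injective,
      Finset.prod_pow_eq_pow_sum]
    congr 1
    rw [← Finset.card_eq_sum_card_fiberwise (fun d _ => Finset.mem_univ (g d))]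
    simp
  simp only [exR_smul, hg, ← Finset.sum_mul]
  refine mul_le_mul_of_nonneg_right ?_ (pow_nonneg h0 _)
  simp only [P, ← Finset.mul_sum]
  refine mul_le_of_le_one_right (Real.exp_pos _).le ?_
  rw [← Fintype.prod_sum (fun (_ : T) (l : Fin R) => (((l : ℕ) : ℝ) + 2) ^ (-2 : ℤ))]
  exact Finset.prod_le_one (fun _ _ => Finset.sum_nonneg fun l _ => by positivity)
    (fun _ _ => sum_inv_sq R)

/-- Second bound: spreadness of the witness sets. -/
lemma spread_bound {p : ℝ} (h0 : 0 ≤ p) (h1 : p ≤ 1) {Q : ℝ} (hQ : 0 < Q) (hQ1 : Q ≤ 1)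
    (hav : ∀ v, (1 - p) ^ (cand v).card ≤ 1 - Q) (T : Finset C) :
    exR (R := R) p (fun η => ind (T ⊆ sel cand η))
      ≤ ((Fintype.card V : ℝ) ^ 2 / Q * p) ^ T.card := by
  rcases T.eq_empty_or_nonempty with rfl | hne
  · simp [ind_true, exR_const]
  set k := Fintype.card V with hk
  set r : ℝ := 1 - Q / k with hr
  by_cases hkT : k < T.card
  · refine le_trans (le_of_eq (Finset.sum_eq_zero fun η _ => ?_)) (by positivity)
    dsimp only
    rw [ind_false, mul_zero]
    intro h
    exact absurd ((Finset.card_le_card h).trans (card_sel_le cand η)) (not_le.2 hkT)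
  push Not at hkT
  have hk0 : 0 < (k : ℝ) := by exact_mod_cast lt_of_lt_of_le hne.card_pos hkT
  have hQk : 0 < Q / k := div_pos hQ hk0
  have hQk1 : Q / k ≤ 1 := by
    rw [div_le_one hk0]
    exact hQ1.trans (by exact_mod_cast lt_of_lt_of_le hne.card_pos hkT)
  have hr0 : 0 ≤ r := by rw [hr]; linarith
  have hr1 : r ≤ 1 := by rw [hr]; linarith
  have hrk : 1 - Q ≤ r ^ k := by
    have := one_add_mul_le_pow (a := -(Q / k)) (by linarith) k
    rw [mul_neg, mul_div_cancel₀ _ hk0.ne'] at this
    rw [hr]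
    simpa [sub_eq_add_neg] using this
  set G : (T → V) → (T → Fin R) → (Fin R → Finset C) → Prop := fun o g η =>
    ∀ d : T, d.1 ∈ η (g d) ∧ ∀ l < g d, Disjoint (η l) (cand (o d))
  have hle : ∀ η, ind (T ⊆ sel cand η)
      ≤ ∑ o : T → V, ∑ g : T → Fin R, ind (G o g η) := by
    intro η
    by_cases h : T ⊆ sel cand η
    · obtain ⟨o, -, hpick⟩ := sel_owner cand h
      choose g hg1 hg2 hg3 using fun d => (pick_spec cand (hpick d)).2
      rw [ind_true h]
      refine le_trans ?_ (Finset.single_le_sum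
        (fun o _ => Finset.sum_nonneg fun g _ => ind_nonneg _) (Finset.mem_univ o))
      refine le_trans ?_ (Finset.single_le_sum (fun g _ => ind_nonneg _) (Finset.mem_univ g))
      rw [ind_true (fun d => ⟨hg1 d, hg3 d⟩)]
    · rw [ind_false h]
      exact Finset.sum_nonneg fun o _ => Finset.sum_nonneg fun g _ => ind_nonneg _
  refine (exR_mono h0 h1 hle).trans ?_
  simp only [exR_sum]
  have hog : ∀ o g, exR p (fun η => ind (G o g η))
      ≤ p ^ T.card * ∏ d : T, r ^ (g d : ℕ) := by
    intro o g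
    set Tl : Fin R → Finset C := fun l =>
      (Finset.univ.filter fun d : T => g d = l).image Subtype.val
    set kl : Fin R → ℕ := fun l => (Finset.univ.filter fun d : T => l < g d).card
    have e : (fun η : Fin R → Finset C => ind (G o g η)) = fun η =>
        ∏ l, ind (Tl l ⊆ η l ∧ ∀ d : T, l < g d → Disjoint (η l) (cand (o d))) := by
      funext η
      rw [← ind_forall]
      congr 1
      refine propext ⟨fun h l => ⟨fun x hx => ?_, fun d hd => (h d).2 l hd⟩,
        fun h d => ⟨(h (g d)).1 ?_, fun l hl => (h l).2 d hl⟩⟩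
      · obtain ⟨d, hd, rfl⟩ := Finset.mem_image.1 hx
        exact (Finset.mem_filter.1 hd).2 ▸ (h d).1
      · exact Finset.mem_image.2 ⟨d, Finset.mem_filter.2 ⟨Finset.mem_univ _, rfl⟩, rfl⟩
    rw [e, exR_prod p (fun l ω => ind (Tl l ⊆ ω ∧ ∀ d : T, l < g d → Disjoint ω (cand (o d))))]
    have hl : ∀ l, ex p (fun ω => ind (Tl l ⊆ ω ∧ ∀ d : T, l < g d → Disjoint ω (cand (o d))))
        ≤ p ^ (Tl l).card * r ^ kl l := by
      intro l
      rcases (Finset.univ.filter fun d : T => l < g d).eq_empty_or_nonempty with h | ⟨d, hd⟩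
      · simp only [kl, h, Finset.card_empty, pow_zero, mul_one, ← ex_subset_one p (Tl l)]
        exact ex_mono h0 h1 fun ω => ind_mono fun h => h.1
      · refine le_trans (ex_mono h0 h1 fun ω => ind_mono fun h =>
          show Tl l ⊆ ω ∧ Disjoint ω (cand (o d)) from
            ⟨h.1, h.2 d (Finset.mem_filter.1 hd).2⟩) ?_
        refine (ex_subset_disjoint h0 h1 _ _).trans
          (mul_le_mul_of_nonneg_left ?_ (pow_nonneg h0 _))
        refine (hav (o d)).trans (hrk.trans (pow_le_pow_of_le_one hr0 hr1 ?_))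
        exact (Finset.card_filter_le _ _).trans (by simpa using hkT)
    refine (Finset.prod_le_prod (fun l _ => ex_nonneg h0 h1 fun ω => ind_nonneg _)
      (fun l _ => hl l)).trans (le_of_eq ?_)
    rw [Finset.prod_mul_distrib, Finset.prod_pow_eq_pow_sum, Finset.prod_pow_eq_pow_sum,
      Finset.prod_pow_eq_pow_sum]
    congr 2
    · simp only [Tl, Finset.card_image_of_injective _ Subtype.val_injective]
      rw [← Finset.card_eq_sum_card_fiberwise (fun d _ => Finset.mem_univ (g d))]
      simp
    · simp only [kl, Finset.card_filter]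
      rw [Finset.sum_comm]
      refine Finset.sum_congr rfl fun d _ => ?_
      rw [← Finset.card_filter, Finset.filter_gt_eq_Iio, Fin.card_Iio]
  refine (Finset.sum_le_sum fun o _ => Finset.sum_le_sum fun g _ => hog o g).trans ?_
  simp only [← Finset.mul_sum]
  rw [Finset.sum_const, Finset.card_univ, Fintype.card_fun, Fintype.card_coe, nsmul_eq_mul]
  rw [← Fintype.prod_sum (fun (_ : T) (l : Fin R) => r ^ (l : ℕ)), Finset.prod_const,
    Finset.card_univ, Fintype.card_coe, Fin.sum_univ_eq_sum_range (fun l => r ^ l) R,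
    Nat.cast_pow, ← hk, mul_left_comm, ← mul_pow, ← mul_pow]
  refine pow_le_pow_left₀ (mul_nonneg hk0.le (mul_nonneg h0 (Finset.sum_nonneg fun l _ =>
    pow_nonneg hr0 l))) ?_ _
  have hgeo : ∑ l ∈ Finset.range R, r ^ l ≤ k / Q := by
    have h := geom_sum_mul_neg r R
    have hpow := pow_nonneg hr0 R
    rw [le_div_iff₀ hQ]
    have e : (1 - r) * k = Q := by rw [hr]; field_simp; ring
    nlinarith [h, e, Finset.sum_nonneg (s := Finset.range R) fun l _ => pow_nonneg hr0 l]
  calc (k : ℝ) * (p * ∑ l ∈ Finset.range R, r ^ l)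
      ≤ k * (p * (k / Q)) := by gcongr
    _ = (k : ℝ) ^ 2 / Q * p := by ring

/-- Third bound: the early event has probability at least one half. -/
lemma early_prob {p : ℝ} (h0 : 0 ≤ p) (h1 : p ≤ 1) (q : V → ℝ) (hq : ∀ v, 0 < q v)
    (hav : ∀ v, (1 - p) ^ (cand v).card ≤ 1 - q v)
    (hR : ∑ v, (1 - q v) ^ R ≤ 1 / 4) {B : ℝ}
    (hB : 4 * ∑ v, (Real.log (2 + 1 / q v) + 1) + 1 ≤ B) :
    1 / 2 ≤ exR (R := R) p (fun η => ind (Early cand B η)) := by
  have hp' : (0 : ℝ) ≤ 1 - p := by linarith
  have hL0 : ∀ v, 0 ≤ Real.log (2 + 1 / q v) + 1 := fun v => by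
    have h2 : (0 : ℝ) ≤ 1 / q v := by have := hq v; positivity
    have := Real.log_nonneg (show (1 : ℝ) ≤ 2 + 1 / q v by linarith)
    linarith
  have hB0 : 0 < B := lt_of_lt_of_le (by
    have := Finset.sum_nonneg (s := Finset.univ) fun v _ => hL0 v
    linarith) hB
  have hle : ∀ η : Fin R → Finset C, 1 - (∑ v, ind (∀ l, Disjoint (η l) (cand v))
      + (1 / B) * ∑ v, Real.log (2 + (fr cand η v : ℝ))) ≤ ind (Early cand B η) := by
    intro η
    have hs0 : 0 ≤ ∑ v, Real.log (2 + (fr cand η v : ℝ)) := Finset.sum_nonneg fun v _ =>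
      Real.log_nonneg (by linarith [(Nat.cast_nonneg (fr cand η v) : (0 : ℝ) ≤ _)])
    by_cases hE : Early cand B η
    · rw [ind_true hE]
      have : 0 ≤ ∑ v, ind (∀ l, Disjoint (η l) (cand v)) :=
        Finset.sum_nonneg fun v _ => ind_nonneg _
      have : 0 ≤ (1 / B) * ∑ v, Real.log (2 + (fr cand η v : ℝ)) := by positivity
      linarith
    · rw [ind_false hE]
      by_cases hall : ∀ v, (hits cand η v).Nonempty
      · have h2 : B ≤ ∑ v, Real.log (2 + (fr cand η v : ℝ)) :=
          le_of_lt (not_le.1 fun hc => hE ⟨hall, hc⟩)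
        have h3 : 1 ≤ (1 / B) * ∑ v, Real.log (2 + (fr cand η v : ℝ)) := by
          rw [one_div, inv_mul_eq_div, one_le_div hB0]; exact h2
        have : 0 ≤ ∑ v, ind (∀ l, Disjoint (η l) (cand v)) :=
          Finset.sum_nonneg fun v _ => ind_nonneg _
        linarith
      · push Not at hall
        obtain ⟨v, hv⟩ := hall
        have h3 : 1 ≤ ∑ v, ind (∀ l, Disjoint (η l) (cand v)) := by
          refine le_trans ?_ (Finset.single_le_sum (fun v _ => ind_nonneg _) (Finset.mem_univ v))
          rw [ind_true]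
          intro l
          by_contra hd
          have : l ∈ hits cand η v := Finset.mem_filter.2 ⟨Finset.mem_univ _, hd⟩
          simp [hv] at this
        have : 0 ≤ (1 / B) * ∑ v, Real.log (2 + (fr cand η v : ℝ)) := by positivity
        linarith
  refine le_trans ?_ (exR_mono h0 h1 hle)
  have e : ∀ (f g : (Fin R → Finset C) → ℝ),
      exR p (fun η => 1 - (f η + (1 / B) * g η)) = 1 - (exR p f + (1 / B) * exR p g) := by
    intro f g
    have h1' := exR_const (C := C) (R := R) p 1
    rw [← exR_smul]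
    simp only [exR, mul_sub, mul_add, Finset.sum_sub_distrib, Finset.sum_add_distrib] at h1' ⊢
    rw [h1']
  rw [e, exR_sum, exR_sum]
  have hno : ∀ v, exR p (fun η : Fin R → Finset C => ind (∀ l, Disjoint (η l) (cand v)))
      ≤ (1 - q v) ^ R := by
    intro v
    simp only [ind_forall]
    rw [exR_prod p (fun _ ω => ind (Disjoint ω (cand v))), Finset.prod_const, ex_disjoint,
      Finset.card_univ, Fintype.card_fin]
    exact pow_le_pow_left₀ (pow_nonneg hp' _) (hav v) R
  have hlog : ∀ v, exR p (fun η : Fin R → Finset C => Real.log (2 + (fr cand η v : ℝ)))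
      ≤ Real.log (2 + 1 / q v) + 1 := by
    intro v
    have hM : 0 < 1 / q v := one_div_pos.2 (hq v)
    have hpt : ∀ η : Fin R → Finset C, Real.log (2 + (fr cand η v : ℝ))
        ≤ Real.log (2 + 1 / q v) + q v * (fr cand η v : ℝ) := by
      intro η
      have hf : (0 : ℝ) ≤ fr cand η v := Nat.cast_nonneg _
      have h3 := Real.log_le_sub_one_of_pos
        (show 0 < (2 + (fr cand η v : ℝ)) / (2 + 1 / q v) by positivity)
      rw [Real.log_div (by positivity) (by positivity)] at h3
      have h4 : (2 + (fr cand η v : ℝ)) / (2 + 1 / q v) ≤ 1 + q v * (fr cand η v : ℝ) := by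
        rw [div_le_iff₀ (by positivity)]
        have h5 : q v * (1 / q v) = 1 := by rw [mul_one_div, div_self (hq v).ne']
        nlinarith [mul_nonneg (hq v).le hf]
      linarith
    refine (exR_mono h0 h1 hpt).trans ?_
    have e2 : exR p (fun η : Fin R → Finset C =>
        Real.log (2 + 1 / q v) + q v * (fr cand η v : ℝ))
        = Real.log (2 + 1 / q v) + q v * exR p (fun η : Fin R → Finset C =>
            (fr cand η v : ℝ)) := by
      rw [← exR_smul]
      conv_rhs => rw [← exR_const (C := C) (R := R) p (Real.log (2 + 1 / q v))]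
      simp only [exR, mul_add, Finset.sum_add_distrib]
    rw [e2]
    have e3 : exR p (fun η : Fin R → Finset C => (fr cand η v : ℝ))
        ≤ ∑ l : Fin R, (1 - q v) ^ ((l : ℕ) + 1) := by
      have e4 : (fun η : Fin R → Finset C => (fr cand η v : ℝ))
          = fun η => ∑ l : Fin R, ∏ l' : Fin R,
              ind (l' ≤ l → Disjoint (η l') (cand v)) := by
        funext η
        simp only [← ind_forall, fr, Finset.card_filter]
        push_cast
        exact Finset.sum_congr rfl fun l _ => by simp [ind]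
      rw [e4, exR_sum]
      refine Finset.sum_le_sum fun l _ => ?_
      rw [exR_prod p (fun l' ω => ind (l' ≤ l → Disjoint ω (cand v)))]
      calc ∏ l' : Fin R, ex p (fun ω => ind (l' ≤ l → Disjoint ω (cand v)))
          ≤ ∏ l' : Fin R, (if l' ≤ l then 1 - q v else 1) := by
            refine Finset.prod_le_prod (fun l' _ => ex_nonneg h0 h1 fun ω => ind_nonneg _)
              fun l' _ => ?_
            split_ifs with hl
            · simp only [hl, true_implies]; rw [ex_disjoint]; exact hav v
            · simp [hl, ind_true, ex_const]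
        _ = (1 - q v) ^ ((l : ℕ) + 1) := by
            rw [Finset.prod_ite, Finset.prod_const, Finset.prod_const_one, mul_one,
              show (Finset.univ.filter fun x : Fin R => x ≤ l) = Finset.Iic l from by ext; simp,
              Fin.card_Iic]
    have e5 : q v * ∑ l : Fin R, (1 - q v) ^ ((l : ℕ) + 1) ≤ 1 := by
      have hq0 : 0 ≤ 1 - q v := (pow_nonneg hp' _).trans (hav v)
      rw [Fin.sum_univ_eq_sum_range (fun l => (1 - q v) ^ (l + 1)) R]
      have h6 := geom_sum_mul_neg (1 - q v) R
      have h7 := pow_nonneg hq0 R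
      have h8 : ∑ l ∈ Finset.range R, (1 - q v) ^ (l + 1)
          = (1 - q v) * ∑ l ∈ Finset.range R, (1 - q v) ^ l := by
        rw [Finset.mul_sum]; exact Finset.sum_congr rfl fun l _ => by ring
      have h9 : 0 ≤ ∑ l ∈ Finset.range R, (1 - q v) ^ l :=
        Finset.sum_nonneg fun l _ => pow_nonneg hq0 l
      rw [h8]
      nlinarith [mul_nonneg (hq v).le (mul_nonneg (hq v).le h9), h7]
    nlinarith [mul_le_mul_of_nonneg_left e3 (hq v).le]
  have h10 : ∑ v, exR p (fun η : Fin R → Finset C => Real.log (2 + (fr cand η v : ℝ))) ≤ B / 4 := by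
    refine (Finset.sum_le_sum fun v _ => hlog v).trans ?_
    linarith
  have h11 : (1 / B) * ∑ v, exR p (fun η : Fin R → Finset C => Real.log (2 + (fr cand η v : ℝ)))
      ≤ 1 / 4 := by
    calc _ ≤ (1 / B) * (B / 4) := mul_le_mul_of_nonneg_left h10 (by positivity)
      _ = 1 / 4 := by field_simp
  have h12 := (Finset.sum_le_sum fun v (_ : v ∈ Finset.univ) => hno v).trans hR
  linarith

variable {V' : Type*} [Fintype V'] (cand' : V' → Finset C)

/-- Correlation of two witness distributions. -/
def pairSum (R : ℕ) (p B B' : ℝ) : ℝ :=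
  exR (R := R) p fun η => exR (R := R) p fun η' =>
    ind (Early cand B η ∧ Early cand' B' η' ∧ ¬ Disjoint (sel cand η) (sel cand' η'))
      / p ^ (sel cand η ∩ sel cand' η').card

/-- Crude bound on the correlation. -/
lemma pairSum_near {p : ℝ} (h0 : 0 < p) (h1 : p ≤ 1) (B B' : ℝ) :
    pairSum cand cand' R p B B' ≤ 2 ^ (Fintype.card V) * Real.exp (2 * B') := by
  refine le_trans (exR_mono h0.le h1
    (g := fun _ => 2 ^ (Fintype.card V) * Real.exp (2 * B')) fun η => ?_) (le_of_eq (exR_const p _))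
  refine le_trans (exR_mono h0.le h1 (g := fun η' => ∑ T ∈ (sel cand η).powerset,
    (1 / p ^ T.card) * ind (Early cand' B' η' ∧ T ⊆ sel cand' η')) fun η' => ?_) ?_
  · refine le_trans ?_ (Finset.single_le_sum (fun T _ => mul_nonneg (by positivity) (ind_nonneg _))
      (Finset.mem_powerset.2 (Finset.inter_subset_left :
        sel cand η ∩ sel cand' η' ⊆ sel cand η)))
    rw [one_div, inv_mul_eq_div]
    exact div_le_div_of_nonneg_right
      (ind_mono fun h => ⟨h.2.1, Finset.inter_subset_right⟩) (by positivity)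
  · rw [exR_sum]
    refine (Finset.sum_le_sum fun T _ => (le_of_eq (exR_smul _ _ _)).trans
      (mul_le_mul_of_nonneg_left (early_bound cand' h0.le h1 B' T) (by positivity))).trans ?_
    have e : ∀ T : Finset C, 1 / p ^ T.card * (Real.exp (2 * B') * p ^ T.card)
        = Real.exp (2 * B') := fun T => by field_simp
    simp only [e, Finset.sum_const, Finset.card_powerset, nsmul_eq_mul, Nat.cast_pow,
      Nat.cast_ofNat]
    refine mul_le_mul_of_nonneg_right ?_ (Real.exp_pos _).le
    exact pow_le_pow_right₀ (by norm_num) (card_sel_le cand η)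

/-- Bound on the correlation through the shared candidates. -/
lemma pairSum_far {p : ℝ} (h0 : 0 < p) (h1 : p ≤ 1) (B B' : ℝ) {Q : ℝ} (hQ : 0 < Q) (hQ1 : Q ≤ 1)
    {k : ℝ} (hk : (Fintype.card V : ℝ) ≤ k) (hk' : (Fintype.card V' : ℝ) ≤ k)
    (hav : ∀ v, (1 - p) ^ (cand v).card ≤ 1 - Q)
    (hav' : ∀ v, (1 - p) ^ (cand' v).card ≤ 1 - Q)
    (hsmall : (k ^ 2 / Q) ^ 2 * p *
      ((Finset.univ.biUnion cand ∩ Finset.univ.biUnion cand').card : ℝ) ≤ 1) :
    pairSum cand cand' R p B B' ≤ 2 * ((k ^ 2 / Q) ^ 2 * p *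
      ((Finset.univ.biUnion cand ∩ Finset.univ.biUnion cand').card : ℝ)) := by
  set I := Finset.univ.biUnion cand ∩ Finset.univ.biUnion cand' with hI
  set K := k ^ 2 / Q with hK
  have hk0 : 0 ≤ k := (Nat.cast_nonneg _).trans hk
  have hK0 : 0 ≤ K := by positivity
  set s : Finset (Finset C) := I.powerset.erase ∅
  refine le_trans (exR_mono h0.le h1 (g := fun η => ∑ D ∈ s,
      (ind (D ⊆ sel cand η) / p ^ D.card) * exR (R := R) p (fun η' => ind (D ⊆ sel cand' η')))
    fun η => ?_) ?_
  · simp only [← exR_smul, ← exR_sum]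
    refine exR_mono h0.le h1 fun η' => ?_
    by_cases h : Early cand B η ∧ Early cand' B' η' ∧ ¬ Disjoint (sel cand η) (sel cand' η')
    · have hmem : sel cand η ∩ sel cand' η' ∈ s := by
        refine Finset.mem_erase.2 ⟨?_, Finset.mem_powerset.2
          (Finset.inter_subset_inter (sel_subset cand η) (sel_subset cand' η'))⟩
        exact fun he => h.2.2 (Finset.disjoint_iff_inter_eq_empty.2 he)
      refine le_trans ?_ (Finset.single_le_sum
        (fun D _ => mul_nonneg (div_nonneg (ind_nonneg _) (by positivity)) (ind_nonneg _)) hmem)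
      rw [ind_true h, ind_true (P := _ ⊆ sel cand η) Finset.inter_subset_left,
        ind_true (P := _ ⊆ sel cand' η') Finset.inter_subset_right, mul_one]
    · rw [ind_false h, zero_div]
      exact Finset.sum_nonneg fun D _ =>
        mul_nonneg (div_nonneg (ind_nonneg _) (by positivity)) (ind_nonneg _)
  · rw [exR_sum]
    have hD : ∀ D ∈ s, exR (R := R) p (fun η => (ind (D ⊆ sel cand η) / p ^ D.card)
          * exR (R := R) p (fun η' => ind (D ⊆ sel cand' η')))
        ≤ (K ^ 2 * p) ^ D.card := by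
      intro D _
      have e : (fun η : Fin R → Finset C => (ind (D ⊆ sel cand η) / p ^ D.card)
          * exR (R := R) p (fun η' => ind (D ⊆ sel cand' η')))
          = fun η => (exR (R := R) p (fun η' => ind (D ⊆ sel cand' η')) / p ^ D.card)
              * ind (D ⊆ sel cand η) := by funext η; ring
      rw [e, exR_smul]
      have a1 : exR (R := R) p (fun η => ind (D ⊆ sel cand η)) ≤ (K * p) ^ D.card :=
        (spread_bound cand h0.le h1 hQ hQ1 hav D).trans (by rw [hK]; gcongr)
      have a2 : exR (R := R) p (fun η => ind (D ⊆ sel cand' η)) ≤ (K * p) ^ D.card :=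
        (spread_bound cand' h0.le h1 hQ hQ1 hav' D).trans (by rw [hK]; gcongr)
      have a3 : 0 ≤ exR (R := R) p (fun η => ind (D ⊆ sel cand η)) :=
        Finset.sum_nonneg fun η _ => mul_nonneg (wR_nonneg h0.le h1 η) (ind_nonneg _)
      calc _ ≤ ((K * p) ^ D.card / p ^ D.card) * (K * p) ^ D.card := by gcongr
        _ = (K ^ 2 * p) ^ D.card := by
            rw [← div_pow, ← mul_pow]; congr 1; field_simp
    refine (Finset.sum_le_sum hD).trans ?_
    have hsum : ∑ D ∈ I.powerset, (K ^ 2 * p) ^ D.card = (1 + K ^ 2 * p) ^ I.card := by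
      rw [← Finset.prod_const, Finset.prod_one_add]
      simp [Finset.prod_const]
    have hs' : ∑ D ∈ s, (K ^ 2 * p) ^ D.card = (1 + K ^ 2 * p) ^ I.card - 1 := by
      rw [Finset.sum_erase_eq_sub (Finset.empty_mem_powerset I), hsum]; simp
    rw [hs']
    have hexp : (1 + K ^ 2 * p) ^ I.card ≤ Real.exp (K ^ 2 * p * I.card) := by
      rw [mul_comm _ (I.card : ℝ), Real.exp_nat_mul]
      exact pow_le_pow_left₀ (by positivity) (by linarith [Real.add_one_le_exp (K ^ 2 * p)]) _
    have hab := Real.abs_exp_sub_one_le (x := K ^ 2 * p * I.card)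
      (by rw [abs_of_nonneg (by positivity)]; exact hsmall)
    rw [abs_of_nonneg (show (0 : ℝ) ≤ K ^ 2 * p * I.card by positivity)] at hab
    linarith [le_abs_self (Real.exp (K ^ 2 * p * I.card) - 1)]

end

end Vale.Agent.P230
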