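import Mathlib
import Vale.Agent.P230.Witness
import Vale.Agent.P230.Cuts

/-!
P230 helper: a random truncated ball defeats every sparse configuration of centres.
-/

open MeasureTheory Metric Set
open scoped RealInnerProductSpace

namespace Vale.Agent.P230

noncomputable section

open scoped Classical

variable {n : ℕ}

/-- Test points. -/
def testPts (n : ℕ) : Finset (Fin n → ℤ) := gridBall n (eps n) 1

/-- Cost of a relative position. -/
def score (n : ℕ) (ρ A : ℝ) (z : Sp n) : ℝ :=
  (∑ k ∈ Finset.range (n + 1), ind (‖z‖ ≤ ρ - (k : ℝ) / n))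
    + 2 * A * ind (‖z‖ ≤ ρ - (dep n : ℝ) / n)

lemma score_nonneg (ρ : ℝ) {A : ℝ} (hA : 0 ≤ A) (z : Sp n) : 0 ≤ score n ρ A z :=
  add_nonneg (Finset.sum_nonneg fun k _ => ind_nonneg _) (mul_nonneg (by linarith) (ind_nonneg _))

/-- Relative position of test point `y` and centre `x`. -/
def rel (y x : Fin n → ℤ) : Sp n := gp (eps n) y - gp (eps n) x

/-- Test points of small total cost. -/
def good (X : Finset (Fin n → ℤ)) : Finset (Fin n → ℤ) :=
  (testPts n).filter fun y =>
    ∑ x ∈ X, score n (1 + del n) (budget n) (rel y x) ≤ budget n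

/-- Configurations which the body must defeat. -/
def Valid (n : ℕ) (X : Finset (Fin n → ℤ)) : Prop :=
  X ⊆ gridBall n (eps n) 3 ∧ X.card ≤ cfgSize n ∧ (testPts n).card ≤ 2 * (good X).card

/-- The ball with the selected caps removed. -/
def body (ω : Finset (Cand n)) : Set (Sp n) := {z | ‖z‖ ≤ 1 ∧ ∀ c ∈ ω, ⟪dir c, z⟫ ≤ tt}

/-- `y` escapes all translates centred at `X`. -/
def Hole (X : Finset (Fin n → ℤ)) (ω : Finset (Cand n)) : Prop :=
  ∃ y ∈ testPts n, ∀ x ∈ X, ‖rel y x‖ ≤ 1 + del n →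
    ∃ c ∈ ω, tt + 3 * del n < ⟪dir c, rel y x⟫

/-- Centres near a test point. -/
def nb (X : Finset (Fin n → ℤ)) (y : Fin n → ℤ) : Finset (Fin n → ℤ) :=
  X.filter fun x => ‖rel y x‖ ≤ 1 + del n

/-- Candidate planes for the centres near a test point. -/
def nbCand (X : Finset (Fin n → ℤ)) (y : Fin n → ℤ) (v : ↥(nb X y)) : Finset (Cand n) :=
  candOf (rel y v.1)

lemma nb_norm {X : Finset (Fin n → ℤ)} {y : Fin n → ℤ} (v : ↥(nb X y)) :
    ‖rel y v.1‖ ≤ 1 + del n :=
  (Finset.mem_filter.1 v.2).2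

lemma budget_nonneg (h : Large n) : 0 ≤ budget n := le_trans zero_le_one (budget_ge h)

lemma depth_facts (h : Large n) {X : Finset (Fin n → ℤ)} {y : Fin n → ℤ} (hy : y ∈ good X)
    (v : ↥(nb X y)) :
    (1 + del n) - (dep n : ℝ) / n < ‖rel y v.1‖ ∧
      1 + (n : ℝ) * ((1 + del n) - ‖rel y v.1‖)
        ≤ 2 * ∑ k ∈ Finset.range (n + 1), ind (‖rel y v.1‖ ≤ (1 + del n) - (k : ℝ) / n) := by
  obtain ⟨hvX, hv⟩ := Finset.mem_filter.1 v.2
  set z := rel y v.1
  have hA := budget_ge h
  have hs : score n (1 + del n) (budget n) z ≤ budget n :=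
    le_trans (Finset.single_le_sum (f := fun x => score n (1 + del n) (budget n) (rel y x))
      (fun x _ => score_nonneg _ (budget_nonneg h) _) hvX) (Finset.mem_filter.1 hy).2
  have hdeep : (1 + del n) - (dep n : ℝ) / n < ‖z‖ := by
    by_contra hc
    have h1 : 0 ≤ ∑ k ∈ Finset.range (n + 1), ind (‖z‖ ≤ (1 + del n) - (k : ℝ) / n) :=
      Finset.sum_nonneg fun k _ => ind_nonneg _
    simp only [score, ind_true (not_lt.1 hc)] at hs
    linarith
  refine ⟨hdeep, ?_⟩
  set d := (n : ℝ) * ((1 + del n) - ‖z‖) with hd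
  have hd0 : 0 ≤ d := mul_nonneg h.pos.le (by linarith)
  have hdn : d < n := by
    have h1 : d < dep n := by
      have h2 := mul_lt_mul_of_pos_left hdeep h.pos
      rw [mul_sub, mul_div_cancel₀ _ h.pos.ne'] at h2
      rw [hd, mul_sub]; linarith
    linarith [dep_le_n h, h.pos]
  have hsub : Finset.range (⌊d⌋₊ + 1) ⊆ Finset.range (n + 1) := by
    rw [Finset.range_subset_range]
    have := (Nat.floor_lt hd0).2 hdn
    omega
  have h2 : ((⌊d⌋₊ + 1 : ℕ) : ℝ)
      ≤ ∑ k ∈ Finset.range (n + 1), ind (‖z‖ ≤ (1 + del n) - (k : ℝ) / n) := by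
    refine le_trans (le_of_eq ?_)
      (Finset.sum_le_sum_of_subset_of_nonneg hsub fun k _ _ => ind_nonneg _)
    rw [Finset.sum_congr rfl (g := fun _ => (1 : ℝ)) ?_]
    · simp
    · intro k hk
      refine ind_true ?_
      have hk2 : (k : ℝ) ≤ d := by
        refine le_trans (Nat.cast_le.2 ?_) (Nat.floor_le hd0)
        exact Nat.lt_succ_iff.1 (Finset.mem_range.1 hk)
      rw [hd] at hk2
      have : (k : ℝ) / n ≤ (1 + del n) - ‖z‖ := by rw [div_le_iff₀ h.pos]; linarith
      linarith
  have := Nat.lt_floor_add_one d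
  push_cast at h2
  linarith [(Nat.cast_nonneg ⌊d⌋₊ : (0 : ℝ) ≤ _)]

lemma sum_nb_le (h : Large n) {X : Finset (Fin n → ℤ)} {y : Fin n → ℤ} (hy : y ∈ good X) :
    ∑ v : ↥(nb X y), ∑ k ∈ Finset.range (n + 1),
      ind (‖rel y v.1‖ ≤ (1 + del n) - (k : ℝ) / n) ≤ budget n := by
  rw [Finset.sum_coe_sort (nb X y)
    (fun x => ∑ k ∈ Finset.range (n + 1), ind (‖rel y x‖ ≤ (1 + del n) - (k : ℝ) / n))]
  refine le_trans ?_ (Finset.mem_filter.1 hy).2
  refine le_trans (Finset.sum_le_sum fun x _ => ?_)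
    (Finset.sum_le_sum_of_subset_of_nonneg (Finset.filter_subset _ X)
      fun x _ _ => score_nonneg _ (budget_nonneg h) _)
  exact le_add_of_nonneg_right (mul_nonneg (by linarith [budget_nonneg h]) (ind_nonneg _))

lemma card_nb_le (h : Large n) {X : Finset (Fin n → ℤ)} {y : Fin n → ℤ} (hy : y ∈ good X) :
    ((nb X y).card : ℝ) ≤ budget n := by
  refine le_trans ?_ (sum_nb_le h hy)
  refine le_trans (le_of_eq (by simp : ((nb X y).card : ℝ) = ∑ _v : ↥(nb X y), (1 : ℝ))) ?_
  refine Finset.sum_le_sum fun v _ => ?_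
  have h1 := (depth_facts h hy v).2
  have h2 : (0 : ℝ) ≤ (n : ℝ) * ((1 + del n) - ‖rel y v.1‖) :=
    mul_nonneg h.pos.le (by linarith [(Finset.mem_filter.1 v.2).2])
  refine le_trans ?_ (Finset.single_le_sum (fun k _ => ind_nonneg _)
    (Finset.mem_range.2 (Nat.succ_pos n) : 0 ∈ Finset.range (n + 1)))
  rw [ind_true]
  simpa using (Finset.mem_filter.1 v.2).2

lemma avoid_le (h : Large n) {X : Finset (Fin n → ℤ)} {y : Fin n → ℤ} (hy : y ∈ good X)
    (v : ↥(nb X y)) :
    (1 - prob n) ^ (nbCand X y v).card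
      ≤ 1 - Real.exp (-(804 * (1 + (n : ℝ) * ((1 + del n) - ‖rel y v.1‖)))) := by
  obtain ⟨hdeep, -⟩ := depth_facts h hy v
  have hv := (Finset.mem_filter.1 v.2).2
  set d := (n : ℝ) * ((1 + del n) - ‖rel y v.1‖) with hd
  have hd0 : 0 ≤ d := mul_nonneg h.pos.le (by linarith)
  have e : d / n = (1 + del n) - ‖rel y v.1‖ := by rw [hd, mul_div_cancel_left₀ _ h.pos.ne']
  have hdn : d ≤ (n : ℝ) / 10000 := by
    refine le_trans ?_ (dep_le_n h)
    have h2 : d / n ≤ (dep n : ℝ) / n := by rw [e]; linarith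
    exact (div_le_div_iff_of_pos_right h.pos).1 h2
  have hlow := cand_lower h hv hd0 (le_of_eq (by rw [e]; ring)) hdn
  set E := Real.exp (-(803 * (1 + d))) with hE
  have hE1 : E ≤ 1 := Real.exp_le_one_iff.2 (by linarith)
  have h1 : (1 - prob n) ^ (nbCand X y v).card ≤ Real.exp (-E) := by
    calc (1 - prob n) ^ (nbCand X y v).card
        ≤ Real.exp (-prob n) ^ (nbCand X y v).card :=
          pow_le_pow_left₀ (by linarith [prob_le_one h]) (Real.one_sub_le_exp_neg _) _
      _ = Real.exp (((nbCand X y v).card : ℝ) * -prob n) := by rw [Real.exp_nat_mul]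
      _ ≤ Real.exp (-E) := Real.exp_le_exp.2 (by
          rw [mul_neg, neg_le_neg_iff, mul_comm]; exact hlow)
  have h2 : Real.exp (-E) ≤ 1 - E / 2 := by
    rw [Real.exp_neg, inv_le_iff_one_le_mul₀ (Real.exp_pos _)]
    nlinarith [Real.add_one_le_exp E, Real.exp_pos (-(803 * (1 + d))), Real.exp_pos E]
  have h3 : Real.exp (-(804 * (1 + d))) ≤ E / 2 := by
    have h4 : Real.exp (-(804 * (1 + d))) = E * Real.exp (-(1 + d)) := by
      rw [hE, ← Real.exp_add]; ring_nf
    have h5 : Real.exp (-(1 + d)) ≤ 1 / 2 := by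
      rw [Real.exp_neg, one_div]
      exact inv_anti₀ (by norm_num) (by linarith [Real.add_one_le_exp (1 + d)])
    rw [h4]
    nlinarith [Real.exp_pos (-(803 * (1 + d)))]
  linarith

lemma avoid_le_uniform (h : Large n) {X : Finset (Fin n → ℤ)} {y : Fin n → ℤ} (hy : y ∈ good X)
    (v : ↥(nb X y)) :
    (1 - prob n) ^ (nbCand X y v).card ≤ 1 - Real.exp (-(804 * (1 + (dep n : ℝ)))) := by
  refine (avoid_le h hy v).trans ?_
  have hdeep := mul_le_mul_of_nonneg_left (depth_facts h hy v).1.le h.pos.le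
  rw [mul_sub, mul_div_cancel₀ _ h.pos.ne'] at hdeep
  refine sub_le_sub_left (Real.exp_le_exp.2 ?_) _
  nlinarith

lemma witness_bound (h : Large n) {X : Finset (Fin n → ℤ)} {y : Fin n → ℤ} (hy : y ∈ good X) :
    4 * ∑ v : ↥(nb X y), (Real.log
        (2 + 1 / Real.exp (-(804 * (1 + (n : ℝ) * ((1 + del n) - ‖rel y v.1‖))))) + 1) + 1
      ≤ 7000 * budget n := by
  have hterm : ∀ v : ↥(nb X y), Real.log
        (2 + 1 / Real.exp (-(804 * (1 + (n : ℝ) * ((1 + del n) - ‖rel y v.1‖))))) + 1
      ≤ 1614 * ∑ k ∈ Finset.range (n + 1),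
          ind (‖rel y v.1‖ ≤ (1 + del n) - (k : ℝ) / n) := by
    intro v
    have h1 := (depth_facts h hy v).2
    set d := (n : ℝ) * ((1 + del n) - ‖rel y v.1‖)
    have hd0 : 0 ≤ d := mul_nonneg h.pos.le (by linarith [(Finset.mem_filter.1 v.2).2])
    rw [Real.exp_neg, one_div, inv_inv]
    have h2 : Real.log (2 + Real.exp (804 * (1 + d))) ≤ 2 + 804 * (1 + d) := by
      rw [Real.log_le_iff_le_exp (by positivity), Real.exp_add]
      have h3 : (3 : ℝ) ≤ Real.exp 2 := by linarith [Real.add_one_le_exp (2 : ℝ)]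
      have h4 : (1 : ℝ) ≤ Real.exp (804 * (1 + d)) := Real.one_le_exp (by linarith)
      nlinarith
    linarith
  have hsum := (Finset.sum_le_sum (s := Finset.univ) fun v _ => hterm v).trans
    (le_of_eq (Finset.mul_sum _ _ _).symm)
  have := sum_nb_le h hy
  linarith [budget_ge h]

lemma test_card (h : Large n) : ballVol n / 2 ≤ ((testPts n).card : ℝ) * eps n ^ n := by
  refine le_trans ?_ (gridBall_lower (n := n) (eps_pos h)
    (show Real.sqrt n * eps n ≤ 1 by have := del_le_small h; unfold del at this; linarith))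
  have := half_pow_bound h
  unfold del at this
  nlinarith [ballVol_pos (n := n)]

lemma ball_count (h : Large n) (S : Finset (Fin n → ℤ)) (x : Sp n) {ρ b : ℝ} (hρ : 0 ≤ ρ)
    (hb : ρ + del n ≤ b) (hS : ∀ g ∈ S, ‖gp (eps n) g - x‖ ≤ ρ) :
    (S.card : ℝ) ≤ 2 * b ^ n * ((testPts n).card : ℝ) := by
  have h1 := gridBall_upper (eps_pos h) S x hρ hS
  have h2 : (ρ + Real.sqrt n * eps n) ^ n ≤ b ^ n :=
    pow_le_pow_left₀ (add_nonneg hρ (del_pos h).le) hb n
  have h3 := test_card h
  have hb0 : 0 ≤ b ^ n := pow_nonneg (by linarith [del_pos h]) n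
  have h4 : (S.card : ℝ) * eps n ^ n ≤ (2 * b ^ n * (testPts n).card) * eps n ^ n := by
    nlinarith [mul_le_mul_of_nonneg_right h2 (ballVol_pos (n := n)).le,
      mul_le_mul_of_nonneg_left h3 hb0]
  exact le_of_mul_le_mul_right h4 (pow_pos (eps_pos h) n)

lemma card_biUnion_le_real {α β : Type*} [DecidableEq β] (s : Finset α) (t : α → Finset β) :
    ((s.biUnion t).card : ℝ) ≤ ∑ a ∈ s, ((t a).card : ℝ) := by
  exact_mod_cast Finset.card_biUnion_le

lemma small_subsets_card {α : Type*} [DecidableEq α] (G : Finset α) (N : ℕ) :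
    (G.powerset.filter fun X => X.card ≤ N).card ≤ (G.card + 1) ^ N := by
  set f : (Fin N → Option ↥G) → Finset α := fun u =>
    Finset.univ.biUnion fun i => (u i).elim ∅ fun g => {g.1}
  refine le_trans (Finset.card_le_card (t := Finset.univ.image f) ?_)
    (le_trans Finset.card_image_le (by simp))
  intro X hX
  obtain ⟨hXG, hXN⟩ := Finset.mem_filter.1 hX
  rw [Finset.mem_powerset] at hXG
  obtain ⟨e⟩ : Nonempty (↥X ↪ Fin N) :=
    Function.Embedding.nonempty_of_card_le (by simpa using hXN)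
  refine Finset.mem_image.2 ⟨fun i => if hi : ∃ x, e x = i then
    some ⟨hi.choose.1, hXG hi.choose.2⟩ else none, Finset.mem_univ _, ?_⟩
  ext a
  simp only [f, Finset.mem_biUnion, Finset.mem_univ, true_and]
  constructor
  · rintro ⟨i, hi'⟩
    by_cases hi : ∃ x, e x = i
    · rw [dif_pos hi, Option.elim_some, Finset.mem_singleton] at hi'
      rw [hi']; exact hi.choose.2
    · rw [dif_neg hi] at hi'; simp at hi'
  · intro ha
    have hi : ∃ x, e x = e ⟨a, ha⟩ := ⟨_, rfl⟩
    refine ⟨e ⟨a, ha⟩, ?_⟩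
    rw [dif_pos hi, Option.elim_some, Finset.mem_singleton]
    exact (congrArg Subtype.val (e.injective hi.choose_spec)).symm

/-- Failure bound for one configuration, summed over pairs. -/
def phi (n : ℕ) : ℝ :=
  2 * budget n * cfgSize n * ((2 * sep n) ^ n * Real.exp (15000 * budget n))
    + 4 * (budget n ^ 2 / Real.exp (-(804 * (1 + (dep n : ℝ))))) ^ 2 * budget n * cfgSize n
      * (101 / 1000 : ℝ) ^ n

lemma phi_pos (h : Large n) : 0 < phi n := by
  have := budget_ge h
  have := sep_pos h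
  have : 0 < cfgSize n := by
    have := h.nat_pos
    unfold cfgSize; positivity
  have : (0 : ℝ) < budget n := by linarith
  unfold phi; positivity

lemma phi_small (h : Large n) : 480 * (n : ℝ) ^ 2 * cfgSize n * phi n ≤ 1 := by
  have hb := budget_le_sq h
  have hb0 := budget_nonneg h
  have hsep := sep_pos h
  have hN : ((cfgSize n : ℕ) : ℝ) ^ 2 = (n : ℝ) ^ 6 * 9 ^ n := by
    unfold cfgSize; push_cast
    rw [mul_pow, ← pow_mul, ← pow_mul, mul_comm n 2, pow_mul (3 : ℝ)]; norm_num
  have hne : (n : ℝ) ≠ 0 := h.pos.ne'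
  have e1 : 480 * (n : ℝ) ^ 2 * cfgSize n
        * (2 * budget n * cfgSize n * ((2 * sep n) ^ n * Real.exp (15000 * budget n)))
      ≤ 1 / 2 := by
    calc _ = 960 * (n : ℝ) ^ 2 * budget n * ((cfgSize n : ℝ) ^ 2)
            * ((2 * sep n) ^ n * Real.exp (15000 * budget n)) := by ring
      _ ≤ 960 * (n : ℝ) ^ 2 * (n : ℝ) ^ 2 * ((n : ℝ) ^ 6 * 9 ^ n)
            * ((2 * sep n) ^ n * Real.exp (15000 * budget n)) := by rw [hN]; gcongr
      _ = 1 / 2 * (1920 * (n : ℝ) ^ 10 * ((18 * sep n) ^ n * Real.exp (15000 * budget n))) := by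
            rw [show (18 : ℝ) * sep n = 9 * (2 * sep n) by ring, mul_pow (9 : ℝ)]; ring
      _ ≤ 1 / 2 := by linarith [near_ok h]
  have e2 : 480 * (n : ℝ) ^ 2 * cfgSize n
        * (4 * (budget n ^ 2 / Real.exp (-(804 * (1 + (dep n : ℝ))))) ^ 2 * budget n * cfgSize n
            * (101 / 1000 : ℝ) ^ n) ≤ 1 / 2 := by
    rw [Real.exp_neg, div_inv_eq_mul, mul_pow, ← pow_mul, ← Real.exp_nat_mul,
      show ((2 : ℕ) : ℝ) * (804 * (1 + (dep n : ℝ))) = 1608 * (1 + (dep n : ℝ)) by push_cast; ring]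
    calc _ = 1920 * (n : ℝ) ^ 2 * budget n ^ 5 * ((cfgSize n : ℝ) ^ 2)
            * (Real.exp (1608 * (1 + (dep n : ℝ))) * (101 / 1000 : ℝ) ^ n) := by ring
      _ ≤ 1920 * (n : ℝ) ^ 2 * ((n : ℝ) ^ 2) ^ 5 * ((n : ℝ) ^ 6 * 9 ^ n)
            * (Real.exp (1608 * (1 + (dep n : ℝ))) * (101 / 1000 : ℝ) ^ n) := by rw [hN]; gcongr
      _ = 1 / 2 * (3840 * (n : ℝ) ^ 18
            * (Real.exp (1608 * (1 + (dep n : ℝ))) * (909 / 1000 : ℝ) ^ n)) := by
            rw [show (909 / 1000 : ℝ) = 9 * (101 / 1000) by norm_num, mul_pow (9 : ℝ)]; ring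
      _ ≤ 1 / 2 := by linarith [far_ok h]
  unfold phi
  rw [mul_add]
  linarith

/-- Close pairs of test points. -/
def Close (X : Finset (Fin n → ℤ)) (y y' : Fin n → ℤ) : Prop :=
  ∃ x ∈ nb X y, ∃ x' ∈ nb X y', ‖rel y x - rel y' x'‖ < sep n

lemma close_count (h : Large n) {X : Finset (Fin n → ℤ)} (hX : X.card ≤ cfgSize n)
    {y : Fin n → ℤ} (hy : y ∈ good X) :
    (((good X).filter (Close X y)).card : ℝ)
      ≤ budget n * cfgSize n * (2 * (2 * sep n) ^ n * ((testPts n).card : ℝ)) := by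
  have hsub : (good X).filter (Close X y) ⊆ (nb X y).biUnion fun x => X.biUnion fun x' =>
      (testPts n).filter fun g =>
        ‖gp (eps n) g - (gp (eps n) y - gp (eps n) x + gp (eps n) x')‖ ≤ sep n := by
    intro y' hy'
    obtain ⟨hg, x, hx, x', hx', hd⟩ := Finset.mem_filter.1 hy'
    refine Finset.mem_biUnion.2 ⟨x, hx, Finset.mem_biUnion.2
      ⟨x', (Finset.mem_filter.1 hx').1, Finset.mem_filter.2 ⟨(Finset.mem_filter.1 hg).1, ?_⟩⟩⟩
    rw [norm_sub_rev]
    refine le_of_eq_of_le ?_ hd.le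
    congr 1
    simp only [rel]; abel
  refine le_trans (Nat.cast_le.2 (Finset.card_le_card hsub)) ?_
  refine (card_biUnion_le_real _ _).trans ?_
  set b := 2 * (2 * sep n) ^ n * ((testPts n).card : ℝ)
  have hb : 0 ≤ b := by have := sep_pos h; positivity
  calc ∑ x ∈ nb X y, _ ≤ ∑ x ∈ nb X y, (cfgSize n : ℝ) * b := by
        refine Finset.sum_le_sum fun x _ => (card_biUnion_le_real _ _).trans ?_
        refine le_trans (Finset.sum_le_sum fun x' _ => ball_count h _ _ (b := 2 * sep n) (sep_pos h).le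
          (by linarith [del_le_sep_self h]) fun g hg => (Finset.mem_filter.1 hg).2) ?_
        rw [Finset.sum_const, nsmul_eq_mul]
        exact mul_le_mul_of_nonneg_right (by exact_mod_cast hX) hb
    _ ≤ budget n * cfgSize n * b := by
        rw [Finset.sum_const, nsmul_eq_mul, mul_assoc]
        exact mul_le_mul_of_nonneg_right (card_nb_le h hy) (by positivity)

lemma cap_count (h : Large n) {X : Finset (Fin n → ℤ)} (hX : X.card ≤ cfgSize n) (c : Cand n) :
    (((good X).filter fun y' => c ∈ Finset.univ.biUnion (nbCand X y')).card : ℝ)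
      ≤ cfgSize n * (2 * (101 / 1000 : ℝ) ^ n * ((testPts n).card : ℝ)) := by
  have hsub : ((good X).filter fun y' => c ∈ Finset.univ.biUnion (nbCand X y')) ⊆
      X.biUnion fun x' => (testPts n).filter fun g =>
        ‖rel g x'‖ ≤ 1 + del n ∧ tt < ⟪dir c, rel g x'⟫ := by
    intro y' hy'
    obtain ⟨hg, hc⟩ := Finset.mem_filter.1 hy'
    obtain ⟨v, -, hv⟩ := Finset.mem_biUnion.1 hc
    obtain ⟨hvX, hvn⟩ := Finset.mem_filter.1 v.2
    refine Finset.mem_biUnion.2 ⟨v.1, hvX,
      Finset.mem_filter.2 ⟨(Finset.mem_filter.1 hg).1, hvn, ?_⟩⟩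
    have := (Finset.mem_filter.1 hv).2
    linarith [del_pos h]
  refine le_trans (Nat.cast_le.2 (Finset.card_le_card hsub)) ?_
  refine (card_biUnion_le_real _ _).trans ?_
  set b := 2 * (101 / 1000 : ℝ) ^ n * ((testPts n).card : ℝ)
  calc ∑ x' ∈ X, _ ≤ ∑ _x' ∈ X, b := by
        refine Finset.sum_le_sum fun x' _ => ball_count h _
          (gp (eps n) x' + (tt / ‖dir c‖) • dir c) (Real.sqrt_nonneg ((1 + del n) ^ 2 - tt ^ 2))
          ?_ fun g hg => ?_
        · have h1 : del n ≤ 1 / 1000000 := by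
            have h2 := n_del_le h
            nlinarith [h.ge, del_pos h]
          have h3 : Real.sqrt ((1 + del n) ^ 2 - tt ^ 2) ≤ 100999 / 1000000 := by
            rw [Real.sqrt_le_iff]
            refine ⟨by norm_num, ?_⟩
            unfold tt
            nlinarith [del_pos h]
          linarith
        · have := cap_subset_small (dir_norm h c) (s := tt) (by norm_num [tt])
            (Finset.mem_filter.1 hg).2
          rw [mem_closedBall, dist_eq_norm] at this
          simpa [rel, sub_add_eq_sub_sub] using this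
    _ ≤ (cfgSize n : ℝ) * b := by
        rw [Finset.sum_const, nsmul_eq_mul]
        exact mul_le_mul_of_nonneg_right (by exact_mod_cast hX) (by positivity)

/-- Correlation bound for two test points. -/
lemma pair_bound (h : Large n) {X : Finset (Fin n → ℤ)} {y y' : Fin n → ℤ} (hy : y ∈ good X)
    (hy' : y' ∈ good X) (R : ℕ) :
    pairSum (nbCand X y) (nbCand X y') R (prob n) (7000 * budget n) (7000 * budget n)
        ≤ ind (Close X y y') * Real.exp (15000 * budget n)
          + 2 * ((budget n ^ 2 / Real.exp (-(804 * (1 + (dep n : ℝ))))) ^ 2 * prob n *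
              ((Finset.univ.biUnion (nbCand X y)
              ∩ Finset.univ.biUnion (nbCand X y')).card : ℝ)) := by
  have hp := prob_pos h
  have hp1 := prob_le_one h
  set Q := Real.exp (-(804 * (1 + (dep n : ℝ)))) with hQ
  have hQ0 : 0 < Q := Real.exp_pos _
  have hQ1 : Q ≤ 1 := Real.exp_le_one_iff.2 (by
    have : (0 : ℝ) ≤ dep n := Nat.cast_nonneg _
    linarith)
  have hA := budget_ge h
  set B := 7000 * budget n with hB
  have hk : (Fintype.card ↥(nb X y) : ℝ) ≤ budget n := by
    rw [Fintype.card_coe]; exact card_nb_le h hy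
  by_cases hc : Close X y y'
  · rw [ind_true hc, one_mul]
    refine le_trans (pairSum_near _ _ hp hp1 B B) (le_add_of_le_of_nonneg ?_ (by positivity))
    have h2 : (2 : ℝ) ^ Fintype.card ↥(nb X y) ≤ Real.exp (budget n) := by
      calc (2 : ℝ) ^ Fintype.card ↥(nb X y) ≤ Real.exp 1 ^ Fintype.card ↥(nb X y) := by
            gcongr; linarith [Real.add_one_le_exp (1 : ℝ)]
        _ = Real.exp (Fintype.card ↥(nb X y)) := by rw [← Real.exp_nat_mul, mul_one]
        _ ≤ _ := Real.exp_le_exp.2 hk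
    refine (mul_le_mul_of_nonneg_right h2 (Real.exp_pos _).le).trans ?_
    rw [← Real.exp_add]
    exact Real.exp_le_exp.2 (by linarith)
  · rw [ind_false hc, zero_mul, zero_add]
    refine pairSum_far _ _ hp hp1 B B hQ0 hQ1 hk
      (by rw [Fintype.card_coe]; exact card_nb_le h hy') (avoid_le_uniform h hy)
      (avoid_le_uniform h hy') ?_
    have hI : prob n * ((Finset.univ.biUnion (nbCand X y)
          ∩ Finset.univ.biUnion (nbCand X y')).card : ℝ)
        ≤ budget n ^ 2 * Real.exp (-Real.sqrt n) := by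
      have hsub : Finset.univ.biUnion (nbCand X y) ∩ Finset.univ.biUnion (nbCand X y') ⊆
          Finset.univ.biUnion fun v : ↥(nb X y) => Finset.univ.biUnion fun v' : ↥(nb X y') =>
            nbCand X y v ∩ nbCand X y' v' := by
        intro d hd
        rw [Finset.mem_inter, Finset.mem_biUnion, Finset.mem_biUnion] at hd
        obtain ⟨⟨v, -, hv⟩, v', -, hv'⟩ := hd
        exact Finset.mem_biUnion.2 ⟨v, Finset.mem_univ _, Finset.mem_biUnion.2
          ⟨v', Finset.mem_univ _, Finset.mem_inter.2 ⟨hv, hv'⟩⟩⟩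
      refine le_trans (mul_le_mul_of_nonneg_left (le_trans
        (Nat.cast_le.2 (Finset.card_le_card hsub))
        ((card_biUnion_le_real _ _).trans
          (Finset.sum_le_sum fun v _ => card_biUnion_le_real _ _))) hp.le) ?_
      rw [Finset.mul_sum]
      refine le_trans (Finset.sum_le_sum fun v _ => (Finset.mul_sum _ _ _).trans_le
        (Finset.sum_le_sum fun v' _ => cand_pair h (Finset.mem_filter.1 v.2).2
          (Finset.mem_filter.1 v'.2).2
          (not_lt.1 fun hlt => hc ⟨v.1, v.2, v'.1, v'.2, hlt⟩))) ?_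
      simp only [Finset.sum_const, nsmul_eq_mul, Finset.card_univ, Fintype.card_coe, ← mul_assoc]
      rw [sq]
      refine mul_le_mul_of_nonneg_right ?_ (Real.exp_pos _).le
      exact mul_le_mul (card_nb_le h hy) (card_nb_le h hy') (Nat.cast_nonneg _) (by linarith)
    rw [mul_assoc]
    exact (mul_le_mul_of_nonneg_left hI (by positivity)).trans (small_ok h)

/-- Correlation bound for one row. -/
lemma row_bound (h : Large n) {X : Finset (Fin n → ℤ)} (hXc : X.card ≤ cfgSize n)
    {y : Fin n → ℤ} (hy : y ∈ good X) (R : ℕ) :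
    ∑ y' ∈ good X,
      pairSum (nbCand X y) (nbCand X y') R (prob n) (7000 * budget n) (7000 * budget n)
      ≤ ((testPts n).card : ℝ) * phi n := by
  have hp := prob_pos h
  set Q := Real.exp (-(804 * (1 + (dep n : ℝ)))) with hQ
  have hQ0 : 0 < Q := Real.exp_pos _
  have hA := budget_ge h
  set G : ℝ := ((testPts n).card : ℝ) with hG
  refine (Finset.sum_le_sum fun y' hy' => pair_bound h hy hy' R).trans ?_
  rw [Finset.sum_add_distrib, ← Finset.sum_mul, ← Finset.mul_sum, ← Finset.mul_sum]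
  have hclose : ∑ y' ∈ good X, ind (Close X y y') = (((good X).filter (Close X y)).card : ℝ) := by
    simp [ind]
  have hint : prob n * ∑ y' ∈ good X,
      ((Finset.univ.biUnion (nbCand X y) ∩ Finset.univ.biUnion (nbCand X y')).card : ℝ)
        ≤ budget n * (cfgSize n * (2 * (101 / 1000 : ℝ) ^ n * G)) := by
    set U := Finset.univ.biUnion (nbCand X y)
    have e : ∑ y' ∈ good X, ((U ∩ Finset.univ.biUnion (nbCand X y')).card : ℝ)
        = ∑ c ∈ U,
          (((good X).filter fun y' => c ∈ Finset.univ.biUnion (nbCand X y')).card : ℝ) := by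
      simp only [← Finset.filter_mem_eq_inter, Finset.card_filter, Nat.cast_sum]
      rw [Finset.sum_comm]
    rw [e]
    refine (mul_le_mul_of_nonneg_left
      (Finset.sum_le_sum fun c _ => cap_count h hXc c) hp.le).trans ?_
    rw [Finset.sum_const, nsmul_eq_mul, ← mul_assoc]
    refine mul_le_mul_of_nonneg_right ?_ (by positivity)
    refine le_trans (mul_le_mul_of_nonneg_left (card_biUnion_le_real _ _) hp.le) ?_
    rw [Finset.mul_sum]
    refine (Finset.sum_le_sum fun v _ => cand_upper h (nb_norm v)).trans ?_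
    simpa using card_nb_le h hy
  have hcast : ∀ y' : Fin n → ℤ, (budget n ^ 2 / Q) ^ 2 * prob n *
      ((Finset.univ.biUnion (nbCand X y) ∩ Finset.univ.biUnion (nbCand X y')).card : ℝ)
      = (budget n ^ 2 / Q) ^ 2 * (prob n *
      ((Finset.univ.biUnion (nbCand X y) ∩ Finset.univ.biUnion (nbCand X y')).card : ℝ)) :=
    fun y' => mul_assoc _ _ _
  rw [hclose]
  calc _ ≤ budget n * cfgSize n * (2 * (2 * sep n) ^ n * G) * Real.exp (15000 * budget n)
        + 2 * ((budget n ^ 2 / Q) ^ 2
            * (budget n * (cfgSize n * (2 * (101 / 1000 : ℝ) ^ n * G)))) := by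
        refine add_le_add (mul_le_mul_of_nonneg_right (close_count h hXc hy)
          (Real.exp_pos _).le) (mul_le_mul_of_nonneg_left ?_ (by norm_num))
        simp only [mul_assoc]
        refine mul_le_mul_of_nonneg_left ?_ (by positivity)
        simpa [mul_assoc] using hint
    _ = G * phi n := by rw [phi, ← hQ]; ring

/-- For one configuration, holes exist except with tiny probability. -/
lemma config_fail (h : Large n) {X : Finset (Fin n → ℤ)} (hX : Valid n X) :
    ex (prob n) (fun ω => ind (¬ Hole X ω)) ≤ Real.exp (-(1 / (48 * phi n))) := by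
  obtain ⟨-, hXc, hgood⟩ := hX
  have hp := prob_pos h
  have hp1 := prob_le_one h
  set Q := Real.exp (-(804 * (1 + (dep n : ℝ)))) with hQ
  have hQ0 : 0 < Q := Real.exp_pos _
  have hQ1 : Q ≤ 1 := Real.exp_le_one_iff.2 (by
    have : (0 : ℝ) ≤ dep n := Nat.cast_nonneg _
    linarith)
  have hA := budget_ge h
  obtain ⟨R, hR⟩ : ∃ R : ℕ, budget n * (1 - Q) ^ R ≤ 1 / 4 := by
    obtain ⟨R, hR⟩ := exists_pow_lt_of_lt_one
      (show (0 : ℝ) < 1 / 4 / budget n by positivity) (show 1 - Q < 1 by linarith)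
    refine ⟨R, ?_⟩
    rw [lt_div_iff₀ (by linarith)] at hR
    linarith
  set B := 7000 * budget n
  have hE : ∀ y ∈ good X,
      1 / 2 ≤ exR (R := R) (prob n) (fun η => ind (Early (nbCand X y) B η)) := by
    intro y hy
    refine early_prob _ hp.le hp1 _ (fun v => Real.exp_pos _) (avoid_le h hy) ?_
      (witness_bound h hy)
    refine le_trans (Finset.sum_le_sum fun v _ => pow_le_pow_left₀
      ((pow_nonneg (by linarith) _).trans (avoid_le h hy v)) (show _ ≤ 1 - Q from ?_) R) ?_
    · refine sub_le_sub_left (Real.exp_le_exp.2 ?_) _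
      have hdeep := mul_le_mul_of_nonneg_left (depth_facts h hy v).1.le h.pos.le
      rw [mul_sub, mul_div_cancel₀ _ h.pos.ne'] at hdeep
      nlinarith
    · rw [Finset.sum_const, nsmul_eq_mul, Finset.card_univ, Fintype.card_coe]
      exact le_trans (mul_le_mul_of_nonneg_right (card_nb_le h hy)
        (pow_nonneg (by linarith) _)) hR
  set a : ↥(good X) × (Fin R → Finset (Cand n)) → ℝ := fun i =>
    wR (prob n) i.2 * ind (Early (nbCand X i.1.1) B i.2)
      / prob n ^ (sel (nbCand X i.1.1) i.2).card with ha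
  set S : ↥(good X) × (Fin R → Finset (Cand n)) → Finset (Cand n) :=
    fun i => sel (nbCand X i.1.1) i.2 with hS
  have ha0 : ∀ i, 0 ≤ a i := fun i =>
    div_nonneg (mul_nonneg (wR_nonneg hp.le hp1 _) (ind_nonneg _)) (pow_nonneg hp.le _)
  set G : ℝ := ((testPts n).card : ℝ) with hG
  have hG0 : 0 < G := by
    have h1 := test_card h
    have h2 := ballVol_pos (n := n)
    have h3 := pow_pos (eps_pos h) n
    by_contra hc
    nlinarith [not_lt.1 hc]
  have hmu : G / 4 ≤ ∑ i, a i * prob n ^ (S i).card := by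
    have e : ∀ i, a i * prob n ^ (S i).card
        = wR (prob n) i.2 * ind (Early (nbCand X i.1.1) B i.2) := fun i => by
      rw [ha, hS]
      exact div_mul_cancel₀ _ (pow_pos hp _).ne'
    simp only [e, Fintype.sum_prod_type]
    calc G / 4 ≤ ((good X).card : ℝ) * (1 / 2) := by
          have : G ≤ 2 * ((good X).card : ℝ) := by rw [hG]; exact_mod_cast hgood
          linarith
      _ = ∑ _y : ↥(good X), (1 / 2 : ℝ) := by simp
      _ ≤ _ := Finset.sum_le_sum fun y _ => hE y.1 y.2
  have hDel : ∑ i, ∑ j, a i * a j * (ind (¬ Disjoint (S i) (S j)) * prob n ^ (S i ∪ S j).card)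
      ≤ G * (G * phi n) := by
    have e : ∀ i j, a i * a j * (ind (¬ Disjoint (S i) (S j)) * prob n ^ (S i ∪ S j).card)
        = wR (prob n) i.2 * (wR (prob n) j.2 *
          (ind (Early (nbCand X i.1.1) B i.2 ∧ Early (nbCand X j.1.1) B j.2
              ∧ ¬ Disjoint (S i) (S j)) / prob n ^ (S i ∩ S j).card)) := by
      intro i j
      have hu : prob n ^ (S i ∪ S j).card
          = prob n ^ (S i).card * prob n ^ (S j).card / prob n ^ (S i ∩ S j).card := by
        rw [eq_div_iff (pow_pos hp _).ne', ← pow_add, ← pow_add, Finset.card_union_add_card_inter]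
      rw [hu, ind_and, ind_and]
      simp only [ha, hS]
      have := (pow_pos hp (sel (nbCand X i.1.1) i.2).card).ne'
      have := (pow_pos hp (sel (nbCand X j.1.1) j.2).card).ne'
      have := (pow_pos hp
        (sel (nbCand X i.1.1) i.2 ∩ sel (nbCand X j.1.1) j.2).card).ne'
      field_simp
    simp only [e, Fintype.sum_prod_type]
    calc _ = ∑ y : ↥(good X), ∑ y' : ↥(good X),
          pairSum (nbCand X y.1) (nbCand X y'.1) R (prob n) B B := by
          refine Finset.sum_congr rfl fun y _ => ?_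
          rw [Finset.sum_comm]
          refine Finset.sum_congr rfl fun y' _ => ?_
          simp only [pairSum, exR, Finset.mul_sum]
          rfl
      _ ≤ ∑ _y : ↥(good X), G * phi n := by
          refine Finset.sum_le_sum fun y _ => ?_
          rw [Finset.sum_coe_sort (good X)
            (fun y' => pairSum (nbCand X y.1) (nbCand X y') R (prob n) B B)]
          exact row_bound h hXc y.2 R
      _ ≤ G * (G * phi n) := by
          rw [Finset.sum_const, nsmul_eq_mul, Finset.card_univ, Fintype.card_coe]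
          refine mul_le_mul_of_nonneg_right ?_ (mul_nonneg hG0.le (phi_pos h).le)
          rw [hG]; exact_mod_cast Finset.card_filter_le _ _
  have hj := janson hp hp1 a ha0 S (m := G / 4) (D := G * (G * phi n)) (by linarith)
    (mul_pos hG0 (mul_pos hG0 (phi_pos h))) hmu hDel
  refine le_trans ?_ (hj.trans (le_of_eq ?_))
  · refine ex_mono hp.le hp1 fun ω => ind_mono fun hno i hi hsub => hno ?_
    have hEi : Early (nbCand X i.1.1) B i.2 := by
      by_contra hc
      rw [ha] at hi
      simp [ind_false hc] at hi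
    refine ⟨i.1.1, (Finset.mem_filter.1 i.1.2).1, fun x hx hxn => ?_⟩
    obtain ⟨d, hd, hdc⟩ := exists_witness (nbCand X i.1.1)
      (hEi.1 ⟨x, Finset.mem_filter.2 ⟨hx, hxn⟩⟩)
    exact ⟨d, hsub hd, (Finset.mem_filter.1 hdc).2⟩
  · congr 1
    have := (phi_pos h).ne'
    field_simp
    ring

lemma body_volume (h : Large n) (ω : Finset (Cand n)) :
    ballVol n ≤ volume.real (body ω) + ∑ c ∈ ω, capVol (dir c) tt := by
  have hsub : closedBall (0 : Sp n) 1 ⊆ body ω ∪ ⋃ c ∈ ω, cap (dir c) tt := by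
    intro z hz
    rw [mem_closedBall, dist_zero_right] at hz
    by_cases hb : ∀ c ∈ ω, ⟪dir c, z⟫ ≤ tt
    · exact Or.inl ⟨hz, hb⟩
    · push Not at hb
      obtain ⟨c, hc, hlt⟩ := hb
      exact Or.inr (Set.mem_iUnion₂.2 ⟨c, hc, hz, hlt⟩)
  have hb1 : volume (body ω) ≠ ⊤ :=
    ne_top_of_le_ne_top measure_closedBall_lt_top.ne
      (measure_mono (show body ω ⊆ closedBall 0 1 from fun z hz => by simpa using hz.1))
  have hb2 : volume (⋃ c ∈ ω, cap (dir c) tt) ≠ ⊤ :=
    ne_top_of_le_ne_top (ENNReal.sum_ne_top.2 fun c _ => cap_ne_top (dir c) tt)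
      (measure_biUnion_finset_le _ _)
  calc ballVol n ≤ volume.real (body ω ∪ ⋃ c ∈ ω, cap (dir c) tt) :=
        measureReal_mono hsub (measure_union_ne_top hb1 hb2)
    _ ≤ volume.real (body ω) + volume.real (⋃ c ∈ ω, cap (dir c) tt) :=
        measureReal_union_le _ _
    _ ≤ _ := by
        gcongr
        exact measureReal_biUnion_finset_le _ _

lemma cut_expect (h : Large n) :
    ex (prob n) (fun ω : Finset (Cand n) => ∑ c ∈ ω, capVol (dir c) tt) ≤ ballVol n / 4 := by
  have hp := prob_pos h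
  have e : (fun ω : Finset (Cand n) => ∑ c ∈ ω, capVol (dir c) tt)
      = fun ω => ∑ c : Cand n, capVol (dir c) tt * ind ({c} ⊆ ω) := by
    funext ω
    rw [← Finset.sum_filter_add_sum_filter_not (Finset.univ : Finset (Cand n)) (fun c => c ∈ ω),
      Finset.filter_mem_eq_inter, Finset.univ_inter]
    have h0 : ∑ c ∈ Finset.univ.filter (fun c => c ∉ ω),
        capVol (dir c) tt * ind ({c} ⊆ ω) = 0 := Finset.sum_eq_zero fun c hc => by
      rw [ind_false (by simpa using hc), mul_zero]
    rw [h0, add_zero]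
    exact Finset.sum_congr rfl fun c hc => by
      rw [ind_true (by simpa using hc), mul_one]
  rw [e, ex_sum]
  simp only [ex_smul, ex_subset_one, Finset.card_singleton, pow_one]
  have hc : ∀ c : Cand n, capVol (dir c) tt ≤ cv n := by
    intro c
    rcases eq_or_ne (dir c) 0 with h0 | h0
    · refine le_trans (le_of_eq ?_) (cv_pos h).le
      have : cap (dir c) tt = ∅ := by
        ext z; simp [cap, h0, tt]; norm_num
      simp [capVol, this]
    · have hd : 0 < ‖dir c‖ := norm_pos_iff.2 h0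
      have he : ‖dir c‖⁻¹ • dir c = (‖dir c‖⁻¹ • dir c) := rfl
      set e := ‖dir c‖⁻¹ • dir c with hedef
      have he1 : ‖e‖ = 1 := by
        rw [hedef, norm_smul, norm_inv, norm_norm, inv_mul_cancel₀ hd.ne']
      have hde : dir c = ‖dir c‖ • e := by rw [hedef, smul_inv_smul₀ hd.ne']
      rw [cv, capVol_rot (u := e0 n) (v := e) (by rw [e0_norm h, he1]), capVol, hde, cap_smul e hd]
      refine capVol_anti e ?_
      rw [le_div_iff₀ hd]
      exact mul_le_of_le_one_right (by norm_num [tt]) (dir_norm h c)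
  calc ∑ c : Cand n, capVol (dir c) tt * prob n ≤ ∑ _c : Cand n, cv n * prob n :=
        Finset.sum_le_sum fun c _ => mul_le_mul_of_nonneg_right (hc c) hp.le
    _ = (((gridBall n (eps n) 1).card : ℝ) * eps n ^ n) / 8 := by
        rw [Finset.sum_const, nsmul_eq_mul, Finset.card_univ, Fintype.card_coe, prob]
        have := (cv_pos h).ne'
        field_simp
    _ ≤ ballVol n / 4 := by
        have h1 := gridBall_upper (eps_pos h) (gridBall n (eps n) 1) (0 : Sp n) zero_le_one
          (fun g hg => by simpa using (mem_gridBall (eps_pos h)).1 hg)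
        have h2 : (1 + Real.sqrt n * eps n) ^ n ≤ 2 := one_add_del_pow h
        nlinarith [mul_le_mul_of_nonneg_right h2 (ballVol_pos (n := n)).le]

lemma cfg_count (h : Large n) :
    ((((gridBall n (eps n) 3).card + 1) ^ cfgSize n : ℕ) : ℝ)
      ≤ Real.exp (5 * (n : ℝ) ^ 2 * cfgSize n) := by
  push_cast
  have hn := h.pos
  have hn1 : (10 : ℝ) ≤ n := le_trans (by norm_num) h.ge
  have h1 : ((gridBall n (eps n) 3).card : ℝ) + 1 ≤ ((n : ℝ) ^ 5) ^ n := by
    refine le_trans (add_le_add_left (card_gridBall_le (eps_pos h) (by norm_num)) 1) ?_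
    have e : 2 * (3 / eps n) + 3 = 6 * (n : ℝ) ^ 4 + 3 := by
      unfold eps; field_simp; ring
    rw [e]
    calc (6 * (n : ℝ) ^ 4 + 3) ^ n + 1 ≤ (6 * (n : ℝ) ^ 4 + 3) ^ n + 1 ^ n := by simp
      _ ≤ (6 * (n : ℝ) ^ 4 + 3 + 1) ^ n :=
          pow_add_pow_le (by positivity) zero_le_one h.nat_pos.ne'
      _ ≤ ((n : ℝ) ^ 5) ^ n := by
          refine pow_le_pow_left₀ (by positivity) ?_ n
          have h4 : (1 : ℝ) ≤ (n : ℝ) ^ 4 := one_le_pow₀ (by linarith)
          have : 10 * (n : ℝ) ^ 4 ≤ n * (n : ℝ) ^ 4 :=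
            mul_le_mul_of_nonneg_right hn1 (by positivity)
          have e5 : (n : ℝ) ^ 5 = n * (n : ℝ) ^ 4 := by ring
          linarith
  refine le_trans (pow_le_pow_left₀ (by positivity) h1 _) ?_
  rw [← pow_mul, ← pow_mul, pow_eq_exp h]
  refine Real.exp_le_exp.2 ?_
  push_cast
  have hl : Real.log n ≤ n := (Real.log_le_sub_one_of_pos hn).trans (by linarith)
  nlinarith [mul_le_mul_of_nonneg_left hl
    (show (0 : ℝ) ≤ (cfgSize n : ℝ) * n by positivity)]

/-- There is a body that leaves a hole in every valid configuration. -/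
theorem exists_body (h : Large n) :
    ∃ ω : Finset (Cand n), ballVol n / 2 ≤ volume.real (body ω) ∧ ∀ X, Valid n X → Hole X ω := by
  have hp := prob_pos h
  have hp1 := prob_le_one h
  set F := (gridBall n (eps n) 3).powerset.filter (Valid n)
  set Bad : Finset (Cand n) → ℝ := fun ω =>
    2 / ballVol n * ∑ c ∈ ω, capVol (dir c) tt + ∑ X ∈ F, ind (¬ Hole X ω)
  have hv := ballVol_pos (n := n)
  have hbad : ex (prob n) Bad < 1 := by
    have e : ex (prob n) Bad = 2 / ballVol n * ex (prob n) (fun ω : Finset (Cand n) => ∑ c ∈ ω, capVol (dir c) tt)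
        + ∑ X ∈ F, ex (prob n) (fun ω => ind (¬ Hole X ω)) := by
      rw [← ex_smul, ← ex_sum]
      simp only [ex, Bad, mul_add, Finset.sum_add_distrib]
    rw [e]
    have h1 : 2 / ballVol n * ex (prob n) (fun ω : Finset (Cand n) => ∑ c ∈ ω, capVol (dir c) tt) ≤ 1 / 2 := by
      calc _ ≤ 2 / ballVol n * (ballVol n / 4) :=
            mul_le_mul_of_nonneg_left (cut_expect h) (by positivity)
        _ = 1 / 2 := by field_simp; ring
    have hF : (F.card : ℝ) ≤ Real.exp (5 * (n : ℝ) ^ 2 * cfgSize n) := by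
      refine le_trans (Nat.cast_le.2 ?_) (cfg_count h)
      refine le_trans (Finset.card_le_card ?_) (small_subsets_card _ _)
      intro X hX
      obtain ⟨h2, h3⟩ := Finset.mem_filter.1 hX
      exact Finset.mem_filter.2 ⟨h2, h3.2.1⟩
    have hN : 1 ≤ (cfgSize n : ℝ) := by
      have := h.nat_pos
      have : 0 < cfgSize n := by unfold cfgSize; positivity
      exact_mod_cast this
    have h2 : ∑ X ∈ F, ex (prob n) (fun ω => ind (¬ Hole X ω)) ≤ 1 / 4 := by
      refine le_trans (Finset.sum_le_sum fun X hX =>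
        config_fail h (Finset.mem_filter.1 hX).2) ?_
      rw [Finset.sum_const, nsmul_eq_mul]
      have h3 : 10 * (n : ℝ) ^ 2 * cfgSize n ≤ 1 / (48 * phi n) := by
        rw [le_div_iff₀ (by linarith [phi_pos h])]
        nlinarith [phi_small h]
      calc (F.card : ℝ) * Real.exp (-(1 / (48 * phi n)))
          ≤ Real.exp (5 * (n : ℝ) ^ 2 * cfgSize n)
            * Real.exp (-(10 * (n : ℝ) ^ 2 * cfgSize n)) := by gcongr
        _ ≤ Real.exp (-5) := by
            rw [← Real.exp_add]
            refine Real.exp_le_exp.2 ?_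
            have hn2 : (1 : ℝ) ≤ (n : ℝ) ^ 2 :=
              one_le_pow₀ (le_trans (by norm_num) h.ge)
            nlinarith
        _ ≤ 1 / 4 := by
            rw [Real.exp_neg, one_div]
            exact inv_anti₀ (by norm_num) (by linarith [Real.add_one_le_exp (5 : ℝ)])
    linarith
  obtain ⟨ω, hω⟩ : ∃ ω, Bad ω < 1 := by
    by_contra hc
    push Not at hc
    have := ex_mono hp.le hp1 hc
    rw [ex_const] at this
    linarith
  have hcap : ∀ c : Cand n, 0 ≤ capVol (dir c) tt := fun c => measureReal_nonneg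
  have hs0 : 0 ≤ 2 / ballVol n * ∑ c ∈ ω, capVol (dir c) tt :=
    mul_nonneg (by positivity) (Finset.sum_nonneg fun c _ => hcap c)
  have hi0 : 0 ≤ ∑ X ∈ F, ind (¬ Hole X ω) := Finset.sum_nonneg fun X _ => ind_nonneg _
  refine ⟨ω, ?_, fun X hX => ?_⟩
  · have h1 := body_volume h ω
    have h2 : 2 / ballVol n * ∑ c ∈ ω, capVol (dir c) tt < 1 := by
      simp only [Bad] at hω; linarith
    rw [div_mul_eq_mul_div, div_lt_one hv] at h2
    linarith
  · by_contra hno
    have hmem : X ∈ F := Finset.mem_filter.2 ⟨Finset.mem_powerset.2 hX.1, hX⟩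
    have := Finset.single_le_sum (fun X _ => ind_nonneg (¬ Hole X ω)) hmem
    rw [ind_true hno] at this
    simp only [Bad] at hω
    linarith

end

end Vale.Agent.P230
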