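import Mathlib
import Vale.Agent.P230.Core
import Vale.Agent.P230.Defs

/-!
P230 helper: from coverings of low density to valid configurations.
-/

open MeasureTheory Metric Set
open scoped RealInnerProductSpace

namespace Vale.Agent.P230

noncomputable section

open scoped Classical

variable {n : ℕ}

lemma ind_ball_eq (c : Sp n) (ρ : ℝ) :
    (fun v : Sp n => ind (‖v - c‖ ≤ ρ)) = (closedBall c ρ).indicator (fun _ => (1 : ℝ)) := by
  funext v
  by_cases hv : ‖v - c‖ ≤ ρ
  · rw [ind_true hv, Set.indicator_of_mem (by rwa [mem_closedBall, dist_eq_norm])]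
  · rw [ind_false hv, Set.indicator_of_notMem (by rwa [mem_closedBall, dist_eq_norm])]

lemma integrable_ind_ball (c : Sp n) (ρ : ℝ) :
    Integrable (fun v : Sp n => ind (‖v - c‖ ≤ ρ)) := by
  rw [ind_ball_eq]
  exact (integrable_indicator_iff measurableSet_closedBall).2
    (integrableOn_const measure_closedBall_lt_top.ne)

lemma integral_ind_ball (c : Sp n) {ρ : ℝ} (hρ : 0 ≤ ρ) :
    ∫ v : Sp n, ind (‖v - c‖ ≤ ρ) = ρ ^ n * ballVol n := by
  rw [ind_ball_eq, integral_indicator_const _ measurableSet_closedBall, smul_eq_mul, mul_one,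
    vol_closedBall c hρ]

lemma score_shift (ρ A : ℝ) (c : Sp n) :
    (fun v : Sp n => score n ρ A (v - c)) = fun v =>
      (∑ k ∈ Finset.range (n + 1), ind (‖v - c‖ ≤ ρ - (k : ℝ) / n))
        + 2 * A * ind (‖v - c‖ ≤ ρ - (dep n : ℝ) / n) := rfl

lemma integrable_score (ρ A : ℝ) (c : Sp n) :
    Integrable (fun v : Sp n => score n ρ A (v - c)) := by
  rw [score_shift]
  exact (integrable_finsetSum _ fun k _ => integrable_ind_ball _ _).add
    ((integrable_ind_ball _ _).const_mul _)

lemma radius_pow (h : Large n) {k : ℝ} (hk0 : 0 ≤ k) (hk : k ≤ n) :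
    0 ≤ (1 + 2 * del n) - k / n ∧ ((1 + 2 * del n) - k / n) ^ n ≤ 2 * Real.exp (-k / 2) := by
  have hn := h.pos
  have hδ := del_pos h
  have h1 : k / n ≤ 1 := by rw [div_le_one hn]; exact hk
  have h0 : 0 ≤ k / n := div_nonneg hk0 hn.le
  refine ⟨by linarith, ?_⟩
  have h2 : (1 + 2 * del n) - k / n ≤ (1 + 2 * del n) * (1 - k / (2 * n)) := by
    have e : k / (2 * n) = k / n / 2 := by field_simp
    rw [e]
    nlinarith [del_le_small h]
  calc ((1 + 2 * del n) - k / n) ^ n ≤ ((1 + 2 * del n) * (1 - k / (2 * n))) ^ n :=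
        pow_le_pow_left₀ (by linarith) h2 n
    _ = (1 + 2 * del n) ^ n * (1 - k / (2 * n)) ^ n := mul_pow _ _ _
    _ ≤ 2 * Real.exp (-k / 2) := by
        have h3 : 0 ≤ 1 - k / (2 * n) := by
          have : k / (2 * n) = k / n / 2 := by field_simp
          linarith
        refine mul_le_mul (two_pow_bound (by linarith) ?_) ?_ (pow_nonneg h3 n) (by norm_num)
        · rw [abs_of_pos (by linarith)]; linarith [n_del_le h]
        · calc (1 - k / (2 * n)) ^ n ≤ Real.exp (-(k / (2 * n))) ^ n :=
                pow_le_pow_left₀ h3 (Real.one_sub_le_exp_neg _) n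
            _ = Real.exp ((n : ℝ) * -(k / (2 * n))) := by rw [Real.exp_nat_mul]
            _ = Real.exp (-k / 2) := by congr 1; field_simp

lemma deep_small (h : Large n) : 4 * budget n * Real.exp (-(dep n : ℝ) / 2) ≤ 1 := by
  have hw : Real.sqrt (Real.sqrt n) ≤ dep n := Nat.le_ceil _
  set w := Real.sqrt (Real.sqrt n) with hwdef
  have hw5 := h.qroot_ge
  have hl : Real.log n ≤ 8 * Real.sqrt w := by
    have h1 : Real.log (Real.sqrt w) = Real.log n / 8 := by
      rw [Real.log_sqrt (Real.sqrt_nonneg _)]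
      rw [Real.log_sqrt (Real.sqrt_nonneg _), Real.log_sqrt (Nat.cast_nonneg _)]
      ring
    have := Real.log_le_sub_one_of_pos
      (Real.sqrt_pos.2 (lt_of_lt_of_le (by norm_num) hw5) : 0 < Real.sqrt w)
    linarith
  have hs : (100 : ℝ) ≤ Real.sqrt w := Real.le_sqrt_of_sq_le (le_trans (by norm_num) hw5)
  have hsq : Real.sqrt w ^ 2 = w := Real.sq_sqrt (Real.sqrt_nonneg _)
  have h4 : (4 : ℝ) ≤ Real.exp 2 := by
    calc (4 : ℝ) ≤ (2.7 : ℝ) ^ 2 := by norm_num
      _ ≤ Real.exp 1 ^ 2 := by gcongr; linarith [Real.exp_one_gt_d9]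
      _ = Real.exp 2 := by rw [← Real.exp_nat_mul]; norm_num
  calc 4 * budget n * Real.exp (-(dep n : ℝ) / 2)
      ≤ Real.exp 2 * Real.exp ((2 : ℕ) * Real.log n) * Real.exp (-(dep n : ℝ) / 2) := by
        rw [← pow_eq_exp h]
        have := budget_nonneg h
        gcongr
        exact budget_le_sq h
    _ ≤ 1 := by
        rw [← Real.exp_add, ← Real.exp_add, Real.exp_le_one_iff]
        push_cast
        nlinarith [mul_le_mul_of_nonneg_left hs (Real.sqrt_nonneg w)]

lemma geom_half (N : ℕ) : ∑ k ∈ Finset.range N, Real.exp (-(k : ℝ) / 2) ≤ 3 := by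
  have e : ∀ k : ℕ, Real.exp (-(k : ℝ) / 2) = Real.exp (-(1 / 2) : ℝ) ^ k := fun k => by
    rw [← Real.exp_nat_mul]; ring_nf
  simp only [e]
  have hq : Real.exp (-(1 / 2) : ℝ) ≤ 2 / 3 := by
    rw [Real.exp_neg, inv_le_comm₀ (Real.exp_pos _) (by norm_num)]
    have := Real.add_one_le_exp (1 / 2 : ℝ)
    linarith
  set q := Real.exp (-(1 / 2) : ℝ) with hqdef
  have hq0 : 0 ≤ q := (Real.exp_pos _).le
  have := geom_sum_mul_neg q N
  have h2 : 0 ≤ q ^ N := pow_nonneg hq0 N
  nlinarith [Finset.sum_nonneg (s := Finset.range N) fun k _ => pow_nonneg hq0 k]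

lemma integral_score (h : Large n) (c : Sp n) :
    ∫ v : Sp n, score n (1 + 2 * del n) (budget n) (v - c) ≤ 7 * ballVol n := by
  have hA := budget_nonneg h
  have hv := ballVol_pos (n := n)
  have hd : (dep n : ℝ) ≤ n := by linarith [dep_le_n h, h.pos]
  have hk : ∀ k ∈ Finset.range (n + 1), (k : ℝ) ≤ n := fun k hk => by
    exact_mod_cast Nat.lt_succ_iff.1 (Finset.mem_range.1 hk)
  rw [score_shift, integral_add (integrable_finsetSum _ fun k _ => integrable_ind_ball _ _)
    ((integrable_ind_ball _ _).const_mul _), integral_finsetSum _ fun k _ => integrable_ind_ball _ _,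
    integral_const_mul, integral_ind_ball _ (radius_pow h (Nat.cast_nonneg _) hd).1]
  have h1 : ∑ k ∈ Finset.range (n + 1), ∫ v : Sp n,
      ind (‖v - c‖ ≤ (1 + 2 * del n) - (k : ℝ) / n) ≤ 6 * ballVol n := by
    calc _ ≤ ∑ k ∈ Finset.range (n + 1), 2 * Real.exp (-(k : ℝ) / 2) * ballVol n := by
          refine Finset.sum_le_sum fun k hk' => ?_
          obtain ⟨a, b⟩ := radius_pow h (Nat.cast_nonneg k) (hk k hk')
          rw [integral_ind_ball _ a]
          exact mul_le_mul_of_nonneg_right b hv.le
      _ = 2 * (∑ k ∈ Finset.range (n + 1), Real.exp (-(k : ℝ) / 2)) * ballVol n := by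
          rw [← Finset.sum_mul, ← Finset.mul_sum]
      _ ≤ 2 * 3 * ballVol n := by gcongr; exact geom_half _
      _ = 6 * ballVol n := by ring
  obtain ⟨a, b⟩ := radius_pow h (Nat.cast_nonneg (dep n)) hd
  have h2 : 2 * budget n * (((1 + 2 * del n) - (dep n : ℝ) / n) ^ n * ballVol n)
      ≤ ballVol n := by
    calc _ ≤ 2 * budget n * (2 * Real.exp (-(dep n : ℝ) / 2) * ballVol n) := by gcongr
      _ = 4 * budget n * Real.exp (-(dep n : ℝ) / 2) * ballVol n := by ring
      _ ≤ 1 * ballVol n := mul_le_mul_of_nonneg_right (deep_small h) hv.le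
      _ = _ := one_mul _
  linarith

lemma volume_cube (R : ℝ) (hR : 0 ≤ R) :
    volume (cube n R) = ENNReal.ofReal ((2 * R) ^ n) := by
  have h : cube n R = (@WithLp.ofLp 2 (Fin n → ℝ)) ⁻¹'
      (Set.univ.pi fun _ => Icc (-R) R) := by
    ext z; simp [cube, abs_le, Pi.le_def, forall_and]
  rw [h, (PiLp.volume_preserving_ofLp (Fin n)).measure_preimage
    ((MeasurableSet.univ_pi fun i => measurableSet_Icc).nullMeasurableSet),
    volume_pi_pi]
  simp only [Real.volume_Icc, sub_neg_eq_add, Finset.prod_const, Finset.card_univ, Fintype.card_fin]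
  rw [← ENNReal.ofReal_pow (by linarith), two_mul]

lemma measurable_cube (R : ℝ) : MeasurableSet (cube n R) := by
  have h : cube n R = (@WithLp.ofLp 2 (Fin n → ℝ)) ⁻¹'
      (Set.univ.pi fun _ => Icc (-R) R) := by
    ext z; simp [cube, abs_le, Pi.le_def, forall_and]
  rw [h]
  exact (PiLp.volume_preserving_ofLp (Fin n)).measurable
    (MeasurableSet.univ_pi fun i => measurableSet_Icc)

lemma cube_bounded (R : ℝ) : Bornology.IsBounded (cube n R) := by
  refine isBounded_closedBall (x := (0 : Sp n)) (r := Real.sqrt n * max R 0) |>.subset ?_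
  intro z hz
  rw [mem_closedBall, dist_zero_right]
  exact norm_le_of_abs (le_max_right _ _) fun i => (hz i).trans (le_max_left _ _)

lemma rd_shift (h : Large n) (x v : Sp n) :
    ‖gp (eps n) (rd (eps n) (x - v)) - (x - v)‖ ≤ del n := by
  rw [norm_sub_rev]; exact norm_sub_rd (eps_pos h) _

lemma ind_le_shift {z z' : Sp n} {δ ρ : ℝ} (hd : ‖z' - z‖ ≤ δ) :
    ind (‖z‖ ≤ ρ) ≤ ind (‖z'‖ ≤ ρ + δ) :=
  ind_mono fun hz => (norm_le_norm_add_norm_sub' z' z).trans (by linarith)

lemma score_le_shift {A : ℝ} (hA : 0 ≤ A) {z z' : Sp n}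
    (hd : ‖z' - z‖ ≤ del n) :
    score n (1 + del n) A z ≤ score n (1 + 2 * del n) A z' := by
  have e : ∀ a : ℝ, ind (‖z‖ ≤ (1 + del n) - a) ≤ ind (‖z'‖ ≤ (1 + 2 * del n) - a) := fun a => by
    refine (ind_le_shift hd).trans (le_of_eq ?_)
    congr 2; ring
  exact add_le_add (Finset.sum_le_sum fun k _ => e _)
    (mul_le_mul_of_nonneg_left (e _) (by linarith))

/-- No covering by translates of a good body has low density. -/
theorem sparse_not_cover (h : Large n) {ω : Finset (Cand n)}
    (hω : ∀ X, Valid n X → Hole X ω) {X : Set (Sp n)} (hX : LocFin X)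
    (hcov : ∀ p : Sp n, ∃ x ∈ X, p - x ∈ body ω) {D R : ℝ} (hD : 0 ≤ D) (hR : 20 * (n : ℝ) ≤ R)
    (hcount : ((X ∩ cube n (R + 5)).ncard : ℝ) ≤ D * (2 * (R + 5)) ^ n)
    (hDv : D * ballVol n ≤ budget n / 100) : False := by
  have hA := budget_ge h
  have hv := ballVol_pos (n := n)
  have hR0 : 0 < R := lt_of_lt_of_le (by linarith [h.pos]) hR
  set Xf := (hX _ (cube_bounded (R + 5))).toFinset with hXf
  have hcard : (Xf.card : ℝ) ≤ 2 * D * (2 * R) ^ n := by
    have e : Xf.card = (X ∩ cube n (R + 5)).ncard := (Set.ncard_eq_toFinset_card _ _).symm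
    rw [e]
    refine hcount.trans ?_
    have h1 : (2 * (R + 5)) ^ n ≤ 2 * (2 * R) ^ n := by
      rw [show 2 * (R + 5) = (1 + 5 / R) * (2 * R) by field_simp, mul_pow]
      refine mul_le_mul_of_nonneg_right (two_pow_bound ?_ ?_) (by positivity)
      · have : (0 : ℝ) ≤ 5 / R := by positivity
        linarith
      · rw [abs_of_pos (by positivity), ← mul_div_assoc, div_le_iff₀ hR0]
        linarith
    calc D * (2 * (R + 5)) ^ n ≤ D * (2 * (2 * R) ^ n) := mul_le_mul_of_nonneg_left h1 hD
      _ = _ := by ring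
  set T := testPts n with hT
  set F : Sp n → ℝ := fun v => ∑ y ∈ T, ∑ x ∈ Xf,
    score n (1 + 2 * del n) (budget n) (v - (x - gp (eps n) y)) with hF
  set G : Sp n → ℝ := fun v => ∑ x ∈ Xf, ind (‖v - x‖ ≤ 5 / 2) with hG
  have hTc : 0 < (T.card : ℝ) := by
    have h1 := test_card h
    have h3 := pow_pos (eps_pos h) n
    by_contra hc
    nlinarith [not_lt.1 hc]
  set α := (T.card : ℝ) * budget n / 2 with hα
  have hα0 : 0 < α := by positivity
  have hN : (0 : ℝ) < cfgSize n := by
    have := h.nat_pos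
    have : 0 < cfgSize n := by unfold cfgSize; positivity
    exact_mod_cast this
  have hFi : Integrable F := integrable_finsetSum _ fun y _ =>
    integrable_finsetSum _ fun x _ => integrable_score _ _ _
  have hGi : Integrable G := integrable_finsetSum _ fun x _ => integrable_ind_ball _ _
  set H : Sp n → ℝ := fun v => F v / α + G v / (cfgSize n : ℝ) with hH
  have hHi : Integrable H := (hFi.div_const _).add (hGi.div_const _)
  have hH0 : ∀ v, 0 ≤ H v := fun v => add_nonneg
    (div_nonneg (Finset.sum_nonneg fun y _ => Finset.sum_nonneg fun x _ =>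
      score_nonneg _ (by linarith) _) hα0.le)
    (div_nonneg (Finset.sum_nonneg fun x _ => ind_nonneg _) hN.le)
  obtain ⟨v, hvR, hHv⟩ : ∃ v ∈ cube n R, H v ≤ 1 := by
    by_contra hc
    push Not at hc
    have h1 : (2 * R) ^ n ≤ ∫ v, H v := by
      calc (2 * R) ^ n = ∫ _v in cube n R, (1 : ℝ) := by
            rw [setIntegral_const, smul_eq_mul, mul_one, measureReal_def, volume_cube R hR0.le,
              ENNReal.toReal_ofReal (by positivity)]
        _ ≤ ∫ v in cube n R, H v := setIntegral_mono_on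
            (integrableOn_const (by rw [volume_cube R hR0.le]; exact ENNReal.ofReal_ne_top))
            hHi.integrableOn (measurable_cube R) fun v hv => (hc v hv).le
        _ ≤ ∫ v, H v := setIntegral_le_integral hHi (Filter.Eventually.of_forall hH0)
    have h2 : ∫ v, H v ≤ (Xf.card : ℝ) * ballVol n
        * (14 / budget n + (5 / 2) ^ n / cfgSize n) := by
      rw [hH, integral_add (hFi.div_const _) (hGi.div_const _), integral_div, integral_div]
      have hFb : ∫ v, F v ≤ (T.card : ℝ) * (Xf.card * (7 * ballVol n)) := by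
        rw [hF, integral_finsetSum _ fun y _ => integrable_finsetSum _ fun x _ =>
          integrable_score _ _ _]
        refine le_trans (Finset.sum_le_sum fun y _ => ?_)
          (le_of_eq (by rw [Finset.sum_const, nsmul_eq_mul]))
        rw [integral_finsetSum _ fun x _ => integrable_score _ _ _]
        refine le_trans (Finset.sum_le_sum fun x _ => integral_score h _)
          (le_of_eq (by rw [Finset.sum_const, nsmul_eq_mul]))
      have hGb : ∫ v, G v = (Xf.card : ℝ) * ((5 / 2) ^ n * ballVol n) := by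
        rw [hG, integral_finsetSum _ fun x _ => integrable_ind_ball _ _]
        simp [integral_ind_ball (n := n) _ (show (0 : ℝ) ≤ 5 / 2 by norm_num)]
      rw [hGb]
      have h3 : (∫ v, F v) / α ≤ (T.card : ℝ) * (Xf.card * (7 * ballVol n)) / α :=
        div_le_div_of_nonneg_right hFb hα0.le
      have h4 : (T.card : ℝ) * (Xf.card * (7 * ballVol n)) / α
          = (Xf.card : ℝ) * ballVol n * (14 / budget n) := by
        rw [hα]; field_simp; ring
      calc _ ≤ (Xf.card : ℝ) * ballVol n * (14 / budget n)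
            + (Xf.card : ℝ) * ((5 / 2) ^ n * ballVol n) / cfgSize n := by
            exact add_le_add (h3.trans_eq h4) le_rfl
        _ = _ := by ring
    have h5 : budget n * ((5 / 2) ^ n / cfgSize n) ≤ 1 := by
      rw [← mul_div_assoc, div_le_one hN]
      unfold cfgSize
      push_cast
      refine mul_le_mul ((budget_le_sq h).trans ?_) (pow_le_pow_left₀ (by norm_num) (by norm_num) n)
        (by positivity) (by positivity)
      exact pow_le_pow_right₀ (le_trans (by norm_num) h.ge) (by norm_num)
    have hpos : 0 < (2 * R) ^ n := by positivity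
    have h6 : ∫ v, H v ≤ (2 * R) ^ n * (30 / 100) := by
      refine h2.trans ?_
      calc (Xf.card : ℝ) * ballVol n * (14 / budget n + (5 / 2) ^ n / cfgSize n)
          ≤ 2 * D * (2 * R) ^ n * ballVol n * (15 / budget n) := by
            have h8 : (5 / 2) ^ n / (cfgSize n : ℝ) ≤ 1 / budget n := by
              rw [le_div_iff₀ (by linarith)]; linarith
            refine mul_le_mul (mul_le_mul_of_nonneg_right hcard hv.le) ?_ (by positivity)
              (by positivity)
            calc 14 / budget n + (5 / 2) ^ n / cfgSize n ≤ 14 / budget n + 1 / budget n := by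
                  linarith
              _ = 15 / budget n := by ring
        _ = (2 * R) ^ n * (30 * (D * ballVol n) / budget n) := by ring
        _ ≤ (2 * R) ^ n * (30 / 100) := by
            refine mul_le_mul_of_nonneg_left ?_ hpos.le
            rw [div_le_iff₀ (by linarith)]
            linarith
    nlinarith
  set S := Xf.filter (fun x => ‖v - x‖ ≤ 5 / 2) with hS
  set Xh := S.image (fun x => rd (eps n) (x - v)) with hXh
  have hF0 : 0 ≤ F v := Finset.sum_nonneg fun y _ => Finset.sum_nonneg fun x _ =>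
    score_nonneg _ (by linarith) _
  have hG0 : 0 ≤ G v := Finset.sum_nonneg fun x _ => ind_nonneg _
  have hFv : F v ≤ α := by
    have : F v / α ≤ 1 := by
      have h1 := div_nonneg hG0 hN.le
      simp only [hH] at hHv; linarith
    rwa [div_le_one hα0] at this
  have hGv : G v ≤ cfgSize n := by
    have : G v / (cfgSize n : ℝ) ≤ 1 := by
      have h1 := div_nonneg hF0 hα0.le
      simp only [hH] at hHv; linarith
    rwa [div_le_one hN] at this
  have hScard : (S.card : ℝ) ≤ cfgSize n := by
    refine le_trans (le_of_eq ?_) hGv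
    simp [hG, hS, ind]
  have hvalid : Valid n Xh := by
    refine ⟨fun g hg => ?_, ?_, ?_⟩
    · obtain ⟨x, hx, rfl⟩ := Finset.mem_image.1 hg
      rw [mem_gridBall (eps_pos h)]
      have h1 := (Finset.mem_filter.1 hx).2
      rw [norm_sub_rev] at h1
      calc _ ≤ ‖x - v‖ + ‖gp (eps n) (rd (eps n) (x - v)) - (x - v)‖ :=
            norm_le_norm_add_norm_sub' _ _
        _ ≤ 3 := by linarith [rd_shift h x v, del_le_small h]
    · have : (Xh.card : ℝ) ≤ cfgSize n := le_trans (Nat.cast_le.2 Finset.card_image_le) hScard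
      exact_mod_cast this
    · have hpt : ∀ y ∈ T, ∑ g ∈ Xh, score n (1 + del n) (budget n) (rel y g)
          ≤ ∑ x ∈ Xf, score n (1 + 2 * del n) (budget n) (v - (x - gp (eps n) y)) := by
        intro y _
        refine le_trans (Finset.sum_image_le_of_nonneg fun g _ =>
          score_nonneg _ (by linarith) _) ?_
        refine le_trans (Finset.sum_le_sum fun x _ => ?_)
          (Finset.sum_le_sum_of_subset_of_nonneg (Finset.filter_subset _ _) fun x _ _ =>
            score_nonneg _ (by linarith) _)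
        refine score_le_shift (by linarith) ?_
        refine le_of_eq_of_le ?_ (rd_shift h x v)
        congr 1
        simp only [rel]; abel
      have hbad : budget n * ((T.filter fun y => y ∉ good Xh).card : ℝ) ≤ α := by
        refine le_trans ?_ hFv
        calc budget n * ((T.filter fun y => y ∉ good Xh).card : ℝ)
            = ∑ _y ∈ T.filter (fun y => y ∉ good Xh), budget n := by
              rw [Finset.sum_const, nsmul_eq_mul, mul_comm]
          _ ≤ ∑ y ∈ T.filter (fun y => y ∉ good Xh),
                ∑ g ∈ Xh, score n (1 + del n) (budget n) (rel y g) := by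
              refine Finset.sum_le_sum fun y hy => ?_
              obtain ⟨hyT, hy2⟩ := Finset.mem_filter.1 hy
              rw [good, Finset.mem_filter] at hy2
              exact (not_le.1 fun hle => hy2 ⟨hyT, hle⟩).le
          _ ≤ ∑ y ∈ T, ∑ g ∈ Xh, score n (1 + del n) (budget n) (rel y g) :=
              Finset.sum_le_sum_of_subset_of_nonneg (Finset.filter_subset _ _) fun y _ _ =>
                Finset.sum_nonneg fun g _ => score_nonneg _ (by linarith) _
          _ ≤ F v := Finset.sum_le_sum hpt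
      have hsplit : (T.filter fun y => y ∈ good Xh).card + (T.filter fun y => y ∉ good Xh).card
          = T.card := Finset.card_filter_add_card_filter_not _
      have hg : (T.filter fun y => y ∈ good Xh) = good Xh := by
        ext y
        simp only [Finset.mem_filter, and_iff_right_iff_imp]
        exact fun hy => (Finset.mem_filter.1 hy).1
      rw [hg] at hsplit
      have hb2 : ((T.filter fun y => y ∉ good Xh).card : ℝ) ≤ (T.card : ℝ) / 2 := by
        rw [hα] at hbad
        exact le_of_mul_le_mul_left (by linarith) (show (0 : ℝ) < budget n by linarith)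
      have hb3 : ((good Xh).card : ℝ) + ((T.filter fun y => y ∉ good Xh).card : ℝ) = T.card := by
        exact_mod_cast hsplit
      have : (T.card : ℝ) ≤ 2 * ((good Xh).card : ℝ) := by linarith
      exact_mod_cast this
  obtain ⟨y, hy, hhole⟩ := hω Xh hvalid
  obtain ⟨x0, hx0, hk⟩ := hcov (v + gp (eps n) y)
  set k := v + gp (eps n) y - x0 with hkdef
  obtain ⟨hk1, hk2⟩ := hk
  have hy1 : ‖gp (eps n) y‖ ≤ 1 := (mem_gridBall (eps_pos h)).1 hy
  have hx0n : ‖v - x0‖ ≤ 2 := by
    have e : v - x0 = k - gp (eps n) y := by rw [hkdef]; abel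
    rw [e]
    linarith [norm_sub_le k (gp (eps n) y)]
  have hx0S : x0 ∈ S := by
    refine Finset.mem_filter.2 ⟨?_, by linarith⟩
    refine (Set.Finite.mem_toFinset _).2 ⟨hx0, fun i => ?_⟩
    have h1 := hvR i
    have h2 : |(v - x0) i| ≤ ‖v - x0‖ := abs_apply_le _ i
    rw [PiLp.sub_apply] at h2
    rw [abs_le] at h1 ⊢
    have h3 := abs_le.1 (h2.trans hx0n)
    constructor <;> linarith
  set g := rd (eps n) (x0 - v)
  have hg : g ∈ Xh := Finset.mem_image.2 ⟨x0, hx0S, rfl⟩
  have hrel : ‖k - rel y g‖ ≤ del n := by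
    refine le_of_eq_of_le ?_ (rd_shift h x0 v)
    congr 1
    simp only [rel, hkdef]; abel
  obtain ⟨c, hc, hcut⟩ := hhole g hg (by
    calc ‖rel y g‖ ≤ ‖k‖ + ‖rel y g - k‖ := norm_le_norm_add_norm_sub' _ _
      _ ≤ 1 + del n := by rw [norm_sub_rev (rel y g) k]; linarith)
  have h1 := (abs_le.1 (abs_real_inner_le_norm (dir c) (k - rel y g))).1
  rw [inner_sub_right] at h1
  have h2 : ‖dir c‖ * ‖k - rel y g‖ ≤ del n :=
    (mul_le_mul (dir_norm h c) hrel (norm_nonneg _) zero_le_one).trans_eq (one_mul _)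
  linarith [hk2 c hc, del_pos h]

end

end Vale.Agent.P230
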