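import Mathlib
import Vale.Agent.P230.Averaging
import Vale.Agent.P230.Defs

/-!
P230 helper: the lower bound for both covering densities.
-/

open MeasureTheory Metric Set Filter Module
open scoped RealInnerProductSpace ENNReal Pointwise Topology

namespace Vale.Agent.P230

noncomputable section

variable {n : ℕ}

lemma body_isConvexBody (ω : Finset (Cand n)) (h : Large n) : IsConvexBody (body ω) := by
  have e : body ω = closedBall (0 : Sp n) 1 ∩ ⋂ c ∈ ω, {z : Sp n | ⟪dir c, z⟫ ≤ tt} := by
    ext z; simp [body]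
  have hcl : IsClosed (⋂ c ∈ ω, {z : Sp n | ⟪dir c, z⟫ ≤ tt}) :=
    isClosed_biInter fun c _ => isClosed_le (continuous_const.inner continuous_id) continuous_const
  refine ⟨?_, ?_, ⟨0, ?_⟩⟩
  · rw [e]
    refine (convex_closedBall _ _).inter (convex_iInter₂ fun c _ => ?_)
    exact convex_halfSpace_le ⟨fun x y => inner_add_right (dir c) x y,
      fun a x => real_inner_smul_right (dir c) x a⟩ tt
  · rw [e]; exact (isCompact_closedBall _ _).inter_right hcl
  · rw [mem_interior]
    refine ⟨ball 0 (1 / 2), fun z hz => ?_, isOpen_ball, mem_ball_self (by norm_num)⟩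
    rw [mem_ball, dist_zero_right] at hz
    refine ⟨by linarith, fun c _ => ?_⟩
    have h1 := real_inner_le_norm (dir c) z
    have h2 := mul_le_mul (dir_norm h c) hz.le (norm_nonneg z) zero_le_one
    unfold tt
    linarith

/-- Every lattice covering gives a translative covering of the same density. -/
lemma thetaT_le_thetaL (K : Set (Sp n)) : thetaT K ≤ thetaL K := by
  refine le_iInf fun L => le_iInf fun hd => le_iInf fun hz => le_iInf fun hcov => ?_
  set b := (Free.chooseBasis ℤ L).ofZLatticeBasis ℝ L with hb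
  have hspan : Submodule.span ℤ (Set.range b) = L := (Free.chooseBasis ℤ L).ofZLatticeBasis_span ℝ L
  have hloc : LocFin (L : Set (Sp n)) := fun S hS => by
    have := ZSpan.setFinite_inter b hS
    rw [hspan] at this
    rwa [Set.inter_comm]
  set F := ZSpan.fundamentalDomain b
  have hFD : IsAddFundamentalDomain L F volume :=
    ZLattice.isAddFundamentalDomain (Free.chooseBasis ℤ L) volume
  set cv' := ZLattice.covolume L volume with hcv
  have hcpos : 0 < cv' := ZLattice.covolume_pos L volume
  have hFvol : volume F = ENNReal.ofReal cv' := by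
    rw [hcv, ZLattice.covolume_eq_measure_fundamentalDomain L volume hFD, measureReal_def,
      ENNReal.ofReal_toReal (ZSpan.fundamentalDomain_isBounded b).measure_lt_top.ne]
  obtain ⟨ρ, hρ0, hρ⟩ := (ZSpan.fundamentalDomain_isBounded b).exists_pos_norm_le
  refine iInf_le_of_le (L : Set (Sp n)) (iInf_le_of_le hloc (iInf_le_of_le hcov ?_))
  rw [div_eq_mul_inv]
  refine mul_le_mul_right ?_ _
  rw [← ENNReal.ofReal_inv_of_pos hcpos]
  have hcount : ∀ R : ℝ, 0 < R →
      (((L : Set (Sp n)) ∩ cube n R).encard : ℝ≥0∞) / ENNReal.ofReal ((2 * R) ^ n)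
        ≤ ENNReal.ofReal (cv'⁻¹ * (1 + ρ / R) ^ n) := by
    intro R hR
    set S := (hloc _ (cube_bounded R)).toFinset with hS
    have hmem : ∀ x ∈ S, x ∈ L ∧ x ∈ cube n R := fun x hx =>
      (hloc _ (cube_bounded R)).mem_toFinset.1 (hS ▸ hx)
    have hdisj : (S : Set (Sp n)).Pairwise
        (Function.onFun (AEDisjoint volume) fun x : Sp n => (fun z => x + z) '' F) := by
      intro x hx y hy hxy
      have := hFD.aedisjoint (i := ⟨x, (hmem x hx).1⟩) (j := ⟨y, (hmem y hy).1⟩)
        (fun he => hxy (congrArg Subtype.val he))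
      exact this
    have hmeas : ∀ x ∈ S, NullMeasurableSet ((fun z : Sp n => x + z) '' F) volume := by
      intro x _
      rw [image_add_left]
      exact ((ZSpan.fundamentalDomain_measurableSet b).preimage
        (measurable_const_add (-x))).nullMeasurableSet
    have hsub : (⋃ x ∈ S, (fun z : Sp n => x + z) '' F) ⊆ cube n (R + ρ) := by
      refine iUnion₂_subset fun x hx => ?_
      rintro _ ⟨z, hz, rfl⟩ i
      have h1 := (hmem x hx).2 i
      have h2 := (abs_apply_le z i).trans (hρ z hz)
      rw [PiLp.add_apply]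
      exact (abs_add_le _ _).trans (by linarith)
    have hvol := measure_mono (μ := volume) hsub
    rw [measure_biUnion_finset₀ hdisj hmeas, volume_cube _ (by linarith)] at hvol
    simp only [image_add_left, measure_preimage_add, hFvol, Finset.sum_const, nsmul_eq_mul] at hvol
    rw [← ENNReal.ofReal_natCast, ← ENNReal.ofReal_mul (Nat.cast_nonneg _),
      ENNReal.ofReal_le_ofReal_iff (by positivity)] at hvol
    have henc : (((L : Set (Sp n)) ∩ cube n R).encard : ℝ≥0∞) = ENNReal.ofReal (S.card : ℝ) := by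
      rw [(hloc _ (cube_bounded R)).encard_eq_coe_toFinset_card, ENNReal.ofReal_natCast]
      rfl
    rw [henc, ← ENNReal.ofReal_div_of_pos (by positivity)]
    refine ENNReal.ofReal_le_ofReal ?_
    rw [div_le_iff₀ (by positivity), mul_assoc, ← mul_pow, inv_mul_eq_div, le_div_iff₀ hcpos]
    calc (S.card : ℝ) * cv' ≤ (2 * (R + ρ)) ^ n := hvol
      _ = ((1 + ρ / R) * (2 * R)) ^ n := by congr 1; field_simp
  refine (Filter.limsup_le_limsup (v := fun R : ℝ => ENNReal.ofReal (cv'⁻¹ * (1 + ρ / R) ^ n))
    ((eventually_gt_atTop (0 : ℝ)).mono fun R hR => hcount R hR)).trans (le_of_eq ?_)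
  refine Tendsto.limsup_eq (ENNReal.tendsto_ofReal ?_)
  have h1 : Tendsto (fun R : ℝ => 1 + ρ / R) atTop (𝓝 (1 + 0)) :=
    tendsto_const_nhds.add (tendsto_const_nhds.div_atTop tendsto_id)
  simpa using (h1.pow n).const_mul cv'⁻¹

/-- The lower bound in large dimension. -/
theorem thetaT_lower (h : Large n) :
    ∃ K : Set (Sp n), IsConvexBody K ∧
      ENNReal.ofReal (1 / (4 * 10 ^ 8) * ((n : ℝ) * Real.log n)) ≤ thetaT K := by
  obtain ⟨ω, hvol, hhole⟩ := exists_body h
  refine ⟨body ω, body_isConvexBody ω h, ?_⟩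
  refine le_iInf fun X => le_iInf fun hX => le_iInf fun hcov => ?_
  by_contra hlt
  rw [not_le] at hlt
  set L := 1 / (4 * 10 ^ 8) * ((n : ℝ) * Real.log n) with hL
  have hL0 : 0 < L := by
    have := h.pos
    have := h.log_ge
    positivity
  have hv := ballVol_pos (n := n)
  have hk0 : 0 < volume.real (body ω) := lt_of_lt_of_le (by linarith) hvol
  have hne : volume (body ω) ≠ ⊤ := (body_isConvexBody ω h).2.1.measure_lt_top.ne
  set D := L / volume.real (body ω) with hD
  have hu : upperDensity X < ENNReal.ofReal D := by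
    rw [hD, ENNReal.ofReal_div_of_pos hk0, measureReal_def, ENNReal.ofReal_toReal hne]
    rw [ENNReal.lt_div_iff_mul_lt (Or.inl ((ENNReal.toReal_pos_iff.1 hk0).1.ne')) (Or.inl hne), mul_comm]
    exact hlt
  have hev := Filter.eventually_lt_of_limsup_lt hu
  obtain ⟨R0, hR0⟩ := Filter.eventually_atTop.1 (hev.and (eventually_gt_atTop (0 : ℝ)))
  set R := max R0 (20 * (n : ℝ)) with hR
  have hR1 : R0 ≤ R + 5 := by linarith [le_max_left R0 (20 * (n : ℝ))]
  obtain ⟨h1, h2⟩ := hR0 (R + 5) hR1
  have hfin := hX _ (cube_bounded (R + 5))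
  rw [← hfin.cast_ncard_eq, ENat.toENNReal_coe, ← ENNReal.ofReal_natCast,
    ← ENNReal.ofReal_div_of_pos (by positivity), ENNReal.ofReal_lt_ofReal_iff (by positivity),
    div_lt_iff₀ (by positivity)] at h1
  refine sparse_not_cover h hhole hX (fun p => ?_) (D := D) (R := R) (by positivity)
    (le_max_right _ _) h1.le ?_
  · have hp : p ∈ body ω + X := hcov ▸ mem_univ p
    obtain ⟨k, hk, x, hx, hkx⟩ := Set.mem_add.1 hp
    exact ⟨x, hx, by rw [← hkx, add_sub_cancel_right]; exact hk⟩
  · rw [hD, div_mul_eq_mul_div, div_le_iff₀ hk0]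
    have hb : budget n / 100 = 4 * L := by rw [hL]; unfold budget; ring
    rw [hb]
    nlinarith

end

end Vale.Agent.P230
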